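/-
Row 81 (S0180), conditional formalisation: clauses 1-5 of `MainConclusion`.
File Defs: all definitions of the development.  No sorry in this file.

Conventions.
* `bc Q j x`  = j-th barycentric coordinate of the point x, `lc Q j v` = its linear part applied to the vector v.
  table = {all bc > 0};  side i = {bc (i+2) = 0, bc i > 0, bc (i+1) > 0}.
* a state is a pair s = (y, v) : Phase (point, direction).  From s the straight ray y + r v leaves the table through the
  coordinate j (i.e. through the side j+1) iff `ExitsVia Q j s` (strict unique minimum of the hitting times).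
* `step` = fly to the boundary and reflect.  `fs n z` = n-th iterate, `ft n z` = time of the n-th collision,
  `fword n z` = list of the first n walls, LAST wall at the head.
* `ng z` = (x, -v) time reversal.  The Z-indexed canonical data `ctime, cpoint, cdir, cwall` glue the forward data of z
  and of `ng z`.
-/
import Claimed.Prelude.Def_0145

set_option autoImplicit false

namespace Claimed.Agent.R081

open Claims.C0145 Claims.C0145.TriangularBilliards
open MeasureTheory Set
open scoped ENNReal symmDiff

noncomputable section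

theorem span_top (Q : Triangle) : affineSpan ℝ (range Q.vertex) = ⊤ := by
  rw [Q.nondegenerate.affineSpan_eq_top_iff_card_eq_finrank_add_one]
  simp [Complex.finrank_real_complex]

/-- the three vertices as an affine basis of the plane -/
def basis (Q : Triangle) : AffineBasis (Fin 3) ℝ ℂ := ⟨Q.vertex, Q.nondegenerate, span_top Q⟩

/-- barycentric coordinate -/
def bc (Q : Triangle) (j : Fin 3) (x : ℂ) : ℝ := (basis Q).coord j x

/-- linear part of the barycentric coordinate -/
def lc (Q : Triangle) (j : Fin 3) (v : ℂ) : ℝ := ((basis Q).coord j).linear v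

theorem tangent_ne_zero (Q : Triangle) (i : Fin 3) : Q.tangent i ≠ 0 := by
  intro h
  have h1 : Q.vertex (i + 1) = Q.vertex i := sub_eq_zero.mp h
  have h2 := Q.nondegenerate.injective h1
  revert h2
  fin_cases i <;> decide

/-- the unit complex number e / conj e, e = tangent of side i -/
def unitOf (Q : Triangle) (i : Fin 3) : Circle :=
  (Circle.ofConjDivSelf (Q.tangent i) (tangent_ne_zero Q i))⁻¹

/-- reflection of a direction in side i -/
def rdir (Q : Triangle) (i : Fin 3) (v : Circle) : Circle := unitOf Q i * v⁻¹

/-- reflection of a point in the line carrying side i -/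
def rpt (Q : Triangle) (i : Fin 3) (x : ℂ) : ℂ :=
  Q.vertex i + reflect (Q.tangent i) (x - Q.vertex i)

/-- reflection acting on the phase space -/
def rph (Q : Triangle) (i : Fin 3) (z : Phase) : Phase := (rpt Q i z.1, rdir Q i z.2)

/-- free motion for time t in the whole plane -/
def tr (t : ℝ) (z : Phase) : Phase := (z.1 + t • (z.2 : ℂ), z.2)

/-- time reversal -/
def ng (z : Phase) : Phase := (z.1, -z.2)

/-- composition of reflections; the head of the list is applied LAST -/
def foldL (Q : Triangle) : List (Fin 3) → Phase → Phase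
  | [] => id
  | i :: w => rph Q i ∘ foldL Q w

/-- inverse of `foldL` -/
def unfoldL (Q : Triangle) : List (Fin 3) → Phase → Phase
  | [] => id
  | i :: w => unfoldL Q w ∘ rph Q i

/-- planar cross product -/
def crs (v u : ℂ) : ℝ := ((starRingEnd ℂ) v * u).im

/-- ambient (infinite) measure on the phase space of the plane -/
def amb : Measure Phase := (volume : Measure ℂ).prod angularMeasure

/-- time at which the ray of the state s meets the line bc j = 0 -/
def hit (Q : Triangle) (j : Fin 3) (s : Phase) : ℝ := bc Q j s.1 / (- lc Q j (s.2 : ℂ))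

/-- the ray of s leaves the table through the coordinate j, and through no other at the same time -/
def ExitsVia (Q : Triangle) (j : Fin 3) (s : Phase) : Prop :=
  lc Q j (s.2 : ℂ) < 0 ∧ ∀ k, k ≠ j → lc Q k (s.2 : ℂ) < 0 → hit Q j s < hit Q k s

def Reg (Q : Triangle) (s : Phase) : Prop := ∃ j, ExitsVia Q j s

open Classical in
def exitC (Q : Triangle) (s : Phase) : Fin 3 :=
  if ExitsVia Q 0 s then 0 else if ExitsVia Q 1 s then 1 else 2

def exitT (Q : Triangle) (s : Phase) : ℝ := hit Q (exitC Q s) s

def exitW (Q : Triangle) (s : Phase) : Fin 3 := exitC Q s + 1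

def step (Q : Triangle) (s : Phase) : Phase :=
  (s.1 + exitT Q s • (s.2 : ℂ), rdir Q (exitW Q s) s.2)

/-- admissible state: interior point, or point of a side with inward direction -/
def Adm (Q : Triangle) (s : Phase) : Prop :=
  s.1 ∈ Q.table ∨ ∃ i, s.1 ∈ Q.side i ∧ 0 < lc Q (i + 2) (s.2 : ℂ)

def fs (Q : Triangle) : ℕ → Phase → Phase
  | 0, z => z
  | n + 1, z => step Q (fs Q n z)

def ft (Q : Triangle) : ℕ → Phase → ℝ
  | 0, _ => 0
  | n + 1, z => ft Q n z + exitT Q (fs Q n z)

/-- wall of the n-th collision (n ≥ 1; junk for n = 0) -/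
def fw (Q : Triangle) (n : ℕ) (z : Phase) : Fin 3 := exitW Q (fs Q (n - 1) z)

def fword (Q : Triangle) : ℕ → Phase → List (Fin 3)
  | 0, _ => []
  | n + 1, z => exitW Q (fs Q n z) :: fword Q n z

/-- the first n steps are regular -/
def RegUpTo (Q : Triangle) (n : ℕ) (z : Phase) : Prop :=
  z.1 ∈ Q.table ∧ ∀ k, k < n → Reg Q (fs Q k z)

def GoodF (Q : Triangle) (z : Phase) : Prop := z.1 ∈ Q.table ∧ ∀ n, Reg Q (fs Q n z)

def Good (Q : Triangle) (z : Phase) : Prop := GoodF Q z ∧ GoodF Q (ng z)

def ctime (Q : Triangle) (n : ℤ) (z : Phase) : ℝ :=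
  if 1 ≤ n then ft Q n.toNat z else - ft Q (1 - n).toNat (ng z)

def cpoint (Q : Triangle) (n : ℤ) (z : Phase) : ℂ :=
  if 1 ≤ n then (fs Q n.toNat z).1 else (fs Q (1 - n).toNat (ng z)).1

def cwall (Q : Triangle) (n : ℤ) (z : Phase) : Fin 3 :=
  if 1 ≤ n then fw Q n.toNat z else fw Q (1 - n).toNat (ng z)

def cdir (Q : Triangle) (n : ℤ) (z : Phase) : Circle :=
  if 0 ≤ n then (fs Q n.toNat z).2 else - (fs Q (-n).toNat (ng z)).2

/-- position at time t computed from the n-th flight -/
def cflow (Q : Triangle) (n : ℤ) (t : ℝ) (z : Phase) : Phase :=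
  (cpoint Q n z + (t - ctime Q n z) • (cdir Q n z : ℂ), cdir Q n z)

/-- forward half of a flight chain, started at an interior point (index 0 = the starting point, index n ≥ 1 = n-th collision).
Unboundedness of the times is a theorem (`HalfChain.unbounded`). -/
structure HalfChain (Q : Triangle) (z : Phase) where
  time : ℕ → ℝ
  point : ℕ → ℂ
  dir : ℕ → Circle
  wall : ℕ → Fin 3
  time_zero : time 0 = 0
  point_zero : point 0 = z.1
  dir_zero : dir 0 = z.2
  start_mem : z.1 ∈ Q.table
  mono : StrictMono time
  on_side : ∀ n, point (n + 1) ∈ Q.side (wall (n + 1))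
  flight : ∀ n, point (n + 1) = point n + (time (n + 1) - time n) • (dir n : ℂ)
  inside : ∀ (n : ℕ) (t : ℝ), time n < t → t < time (n + 1) →
    point n + (t - time n) • (dir n : ℂ) ∈ Q.table
  specular : ∀ n, (dir (n + 1) : ℂ) = reflect (Q.tangent (wall (n + 1))) (dir n : ℂ)

/-- clause 6 of `MainConclusion` -/
def Crux (Q : Triangle) : Prop :=
  ∀ A : Set Phase, MeasurableSet A →
    (∀ t : ℝ, phaseMeasure Q (((billiardFlow Q t) ⁻¹' A) ∆ A) = 0) →
    phaseMeasure Q A = 0 ∨ phaseMeasure Q A = 1

end

end Claimed.Agent.R081
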