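/-
Row 81, file BaryA: barycentric coordinates of the triangle.  Mathlib only (+ Defs).
All statements are elementary facts on `AffineBasis.coord`; useful Mathlib names:
`AffineBasis.interior_convexHull`, `AffineBasis.sum_coord_apply_eq_one`, `AffineBasis.coord_apply`,
`AffineBasis.affineCombination_coord_eq_self`, `AffineMap.map_vadd`, `AffineBasis.ext_elem` / `AffineBasis.coords`.
-/
import Claimed.Agent.R081.Defs

set_option autoImplicit false

namespace Claimed.Agent.R081

open Claims.C0145 Claims.C0145.TriangularBilliards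
open MeasureTheory Set

variable (Q : Triangle)

theorem sum_bc (x : ℂ) : bc Q 0 x + bc Q 1 x + bc Q 2 x = 1 := by
  have h := (basis Q).sum_coord_apply_eq_one x
  rw [Fin.sum_univ_three] at h
  exact h

theorem bc_add_smul (j : Fin 3) (x : ℂ) (s : ℝ) (v : ℂ) :
    bc Q j (x + s • v) = bc Q j x + s * lc Q j v := by
  unfold bc lc
  have e : x + s • v = (s • v) +ᵥ x := by rw [vadd_eq_add, add_comm]
  rw [e, AffineMap.map_vadd, map_smul, vadd_eq_add, smul_eq_mul, add_comm]

theorem bc_sub (j : Fin 3) (x y : ℂ) : bc Q j x - bc Q j y = lc Q j (x - y) := by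
  unfold bc lc
  have h := AffineMap.linearMap_vsub ((basis Q).coord j) x y
  rw [vsub_eq_sub, vsub_eq_sub] at h
  exact h.symm

theorem lc_add (j : Fin 3) (v w : ℂ) : lc Q j (v + w) = lc Q j v + lc Q j w := by
  exact map_add _ v w

theorem lc_smul (j : Fin 3) (r : ℝ) (v : ℂ) : lc Q j (r • v) = r * lc Q j v := by
  unfold lc
  rw [map_smul, smul_eq_mul]

theorem lc_neg (j : Fin 3) (v : ℂ) : lc Q j (-v) = - lc Q j v := by
  exact map_neg _ v

theorem sum_lc (v : ℂ) : lc Q 0 v + lc Q 1 v + lc Q 2 v = 0 := by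
  have h1 := sum_bc Q (0 + (1 : ℝ) • v)
  have h0 := sum_bc Q 0
  rw [bc_add_smul, bc_add_smul, bc_add_smul] at h1
  linarith

theorem bc_vertex (i j : Fin 3) : bc Q j (Q.vertex i) = if i = j then 1 else 0 := by
  have h := (basis Q).coord_apply j i
  have e : (basis Q) i = Q.vertex i := rfl
  rw [e] at h
  unfold bc
  rw [h]
  by_cases hij : i = j
  · rw [if_pos hij, if_pos hij.symm]
  · rw [if_neg hij, if_neg (fun e => hij e.symm)]

theorem continuous_bc (j : Fin 3) : Continuous (bc Q j) := by
  exact AffineMap.continuous_of_finiteDimensional _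

theorem continuous_lc (j : Fin 3) : Continuous (lc Q j) := by
  exact LinearMap.continuous_of_finiteDimensional _

theorem eq_of_bc_eq {x y : ℂ} (h : ∀ j, bc Q j x = bc Q j y) : x = y := by
  exact (basis Q).ext_elem h

theorem eq_zero_of_lc_eq_zero {v : ℂ} (h : ∀ j, lc Q j v = 0) : v = 0 := by
  have h1 : (0 : ℂ) + (1 : ℝ) • v = 0 := by
    apply eq_of_bc_eq Q
    intro j
    rw [bc_add_smul, h j]
    ring
  simpa using h1

/-- a nonzero vector decreases some barycentric coordinate (the three `lc` sum to 0 and do not all vanish) -/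
theorem exists_lc_neg {v : ℂ} (hv : v ≠ 0) : ∃ j, lc Q j v < 0 := by
  by_contra hcon
  push Not at hcon
  apply hv
  apply eq_zero_of_lc_eq_zero Q
  have hs := sum_lc Q v
  have h0 := hcon 0
  have h1 := hcon 1
  have h2 := hcon 2
  intro j
  fin_cases j
  · show lc Q 0 v = 0
    linarith
  · show lc Q 1 v = 0
    linarith
  · show lc Q 2 v = 0
    linarith

end Claimed.Agent.R081
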