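/-
Row 81, file BaryB: barycentric coordinates of the triangle.  Mathlib only (+ Defs).
All statements are elementary facts on `AffineBasis.coord`; useful Mathlib names:
`AffineBasis.interior_convexHull`, `AffineBasis.sum_coord_apply_eq_one`, `AffineBasis.coord_apply`,
`AffineBasis.affineCombination_coord_eq_self`, `AffineMap.map_vadd`, `AffineBasis.ext_elem` / `AffineBasis.coords`.
-/
import Claimed.Agent.R081.BaryA

set_option autoImplicit false

namespace Claimed.Agent.R081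

open Claims.C0145 Claims.C0145.TriangularBilliards
open MeasureTheory Set

variable (Q : Triangle)

/-! ### index bookkeeping in `Fin 3` -/

theorem baryB_ne (i : Fin 3) :
    i ≠ i + 1 ∧ i ≠ i + 2 ∧ i + 1 ≠ i + 2 ∧ i + 1 ≠ i ∧ i + 2 ≠ i ∧ i + 2 ≠ i + 1 := by
  revert i; decide

theorem baryB_cases (i j : Fin 3) : j = i ∨ j = i + 1 ∨ j = i + 2 := by
  revert i j; decide

theorem baryB_forall (i : Fin 3) {P : Fin 3 → Prop} (h0 : P i) (h1 : P (i + 1)) (h2 : P (i + 2)) :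
    ∀ j, P j := by
  intro j
  rcases baryB_cases i j with rfl | rfl | rfl <;> assumption

theorem baryB_idx (i : Fin 3) : (i = 0 ∧ i + 1 = 1 ∧ i + 2 = 2) ∨ (i = 1 ∧ i + 1 = 2 ∧ i + 2 = 0) ∨
    (i = 2 ∧ i + 1 = 0 ∧ i + 2 = 1) := by
  revert i; decide

theorem sum_bc_cyc (i : Fin 3) (x : ℂ) : bc Q i x + bc Q (i + 1) x + bc Q (i + 2) x = 1 := by
  have h := sum_bc Q x
  rcases baryB_idx i with ⟨a, b, c⟩ | ⟨a, b, c⟩ | ⟨a, b, c⟩ <;> rw [b, c, a] <;> linarith

theorem sum_lc_cyc (i : Fin 3) (v : ℂ) : lc Q i v + lc Q (i + 1) v + lc Q (i + 2) v = 0 := by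
  have h := sum_lc Q v
  rcases baryB_idx i with ⟨a, b, c⟩ | ⟨a, b, c⟩ | ⟨a, b, c⟩ <;> rw [b, c, a] <;> linarith

/-- `bc` of a convex (affine) combination of two points -/
theorem bc_comb (j : Fin 3) (p q : ℂ) (a b : ℝ) (hab : a + b = 1) :
    bc Q j (a • p + b • q) = a * bc Q j p + b * bc Q j q := by
  have h1 : a • p + b • q = p + b • (q - p) := by
    have : a = 1 - b := by linarith
    rw [this, sub_smul, one_smul, smul_sub]
    abel
  rw [h1, bc_add_smul, ← bc_sub]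
  have : a = 1 - b := by linarith
  rw [this]
  ring

theorem lc_tangent_all (i j : Fin 3) :
    lc Q j (Q.tangent i) = (if i + 1 = j then 1 else 0) - (if i = j then 1 else 0) := by
  unfold Triangle.tangent
  rw [← bc_sub, bc_vertex, bc_vertex]

theorem mem_table_iff {x : ℂ} : x ∈ Q.table ↔ ∀ j, 0 < bc Q j x := by
  show x ∈ interior (convexHull ℝ (range (basis Q))) ↔ _
  rw [AffineBasis.interior_convexHull]
  rfl

theorem mem_side_iff (i : Fin 3) {x : ℂ} :
    x ∈ Q.side i ↔ bc Q (i + 2) x = 0 ∧ 0 < bc Q i x ∧ 0 < bc Q (i + 1) x := by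
  obtain ⟨n1, n2, n3, n4, n5, n6⟩ := baryB_ne i
  constructor
  · rintro ⟨a, b, ha, hb, hab, rfl⟩
    refine ⟨?_, ?_, ?_⟩
    · rw [bc_comb Q _ _ _ _ _ hab, bc_vertex, bc_vertex, if_neg n2, if_neg n3]; simp
    · rw [bc_comb Q _ _ _ _ _ hab, bc_vertex, bc_vertex, if_pos rfl, if_neg n4]; simpa using ha
    · rw [bc_comb Q _ _ _ _ _ hab, bc_vertex, bc_vertex, if_pos rfl, if_neg n1]; simpa using hb
  · rintro ⟨h2, h0, h1⟩
    have hs := sum_bc_cyc Q i x
    have hab : bc Q i x + bc Q (i + 1) x = 1 := by linarith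
    refine ⟨bc Q i x, bc Q (i + 1) x, h0, h1, hab, ?_⟩
    apply eq_of_bc_eq Q
    intro j
    rcases baryB_cases i j with rfl | rfl | rfl
    · rw [bc_comb Q _ _ _ _ _ hab, bc_vertex, bc_vertex, if_pos rfl, if_neg n4]; simp
    · rw [bc_comb Q _ _ _ _ _ hab, bc_vertex, bc_vertex, if_pos rfl, if_neg n1]; simp
    · rw [bc_comb Q _ _ _ _ _ hab, bc_vertex, bc_vertex, if_neg n2, if_neg n3, h2]; simp

theorem eq_vertex_of_bc {x : ℂ} (k : Fin 3) (h1 : bc Q (k + 1) x = 0) (h2 : bc Q (k + 2) x = 0) :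
    x = Q.vertex k := by
  obtain ⟨n1, n2, n3, n4, n5, n6⟩ := baryB_ne k
  have hs := sum_bc_cyc Q k x
  apply eq_of_bc_eq Q
  intro j
  rcases baryB_cases k j with rfl | rfl | rfl
  · rw [bc_vertex, if_pos rfl]; linarith
  · rw [bc_vertex, if_neg n1, h1]
  · rw [bc_vertex, if_neg n2, h2]

/-- two vanishing coordinates: the point is the third vertex -/
theorem eq_vertex_of_bc_eq_zero {x : ℂ} {j k : Fin 3} (hjk : j ≠ k) (hj : bc Q j x = 0)
    (hk : bc Q k x = 0) : ∃ l, x = Q.vertex l := by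
  have key : ∀ j k : Fin 3, j ≠ k → ∃ l : Fin 3, (l + 1 = j ∧ l + 2 = k) ∨ (l + 1 = k ∧ l + 2 = j) := by
    decide
  obtain ⟨l, ⟨a, b⟩ | ⟨a, b⟩⟩ := key j k hjk
  · exact ⟨l, eq_vertex_of_bc Q l (a ▸ hj) (b ▸ hk)⟩
  · exact ⟨l, eq_vertex_of_bc Q l (a ▸ hk) (b ▸ hj)⟩

theorem lc_tangent (i : Fin 3) : lc Q (i + 2) (Q.tangent i) = 0 := by
  obtain ⟨n1, n2, n3, n4, n5, n6⟩ := baryB_ne i
  rw [lc_tangent_all, if_neg n3, if_neg n2]; simp

/-- the kernel of `lc (i+2)` is the direction of side i -/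
theorem exists_smul_tangent_of_lc_eq_zero (i : Fin 3) {v : ℂ} (h : lc Q (i + 2) v = 0) :
    ∃ r : ℝ, v = r • Q.tangent i := by
  obtain ⟨n1, n2, n3, n4, n5, n6⟩ := baryB_ne i
  have hs := sum_lc_cyc Q i v
  refine ⟨lc Q (i + 1) v, ?_⟩
  rw [← sub_eq_zero]
  apply eq_zero_of_lc_eq_zero Q
  have hsub : ∀ j, lc Q j (v - lc Q (i + 1) v • Q.tangent i)
      = lc Q j v - lc Q (i + 1) v * lc Q j (Q.tangent i) := by
    intro j
    rw [sub_eq_add_neg, lc_add, lc_neg, lc_smul]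
    ring
  intro j
  rcases baryB_cases i j with rfl | rfl | rfl
  · rw [hsub, lc_tangent_all, if_neg n4, if_pos rfl]; linarith
  · rw [hsub, lc_tangent_all, if_pos rfl, if_neg n1]; ring
  · rw [hsub, lc_tangent_all, if_neg n3, if_neg n2, h]; ring

/-- a point of the line carrying side i differs from each of the two end points by a real multiple of the tangent -/
theorem exists_smul_tangent_of_bc_eq_zero (i : Fin 3) {x : ℂ} (h : bc Q (i + 2) x = 0) :
    (∃ r : ℝ, x - Q.vertex i = r • Q.tangent i) ∧ (∃ r : ℝ, x - Q.vertex (i + 1) = r • Q.tangent i) := by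
  obtain ⟨n1, n2, n3, n4, n5, n6⟩ := baryB_ne i
  constructor
  · apply exists_smul_tangent_of_lc_eq_zero
    rw [← bc_sub, h, bc_vertex, if_neg n2]; simp
  · apply exists_smul_tangent_of_lc_eq_zero
    rw [← bc_sub, h, bc_vertex, if_neg n3]; simp

theorem side_disjoint_table (i : Fin 3) {x : ℂ} (h : x ∈ Q.side i) : x ∉ Q.table := by
  intro ht
  have h1 := ((mem_side_iff Q i).1 h).1
  have h2 := (mem_table_iff Q).1 ht (i + 2)
  linarith

theorem side_unique {i i' : Fin 3} {x : ℂ} (h : x ∈ Q.side i) (h' : x ∈ Q.side i') : i = i' := by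
  obtain ⟨a, b, c⟩ := (mem_side_iff Q i).1 h
  obtain ⟨a', b', c'⟩ := (mem_side_iff Q i').1 h'
  have key : ∀ i i' : Fin 3, i = i' ∨ i' + 2 = i ∨ i' + 2 = i + 1 := by decide
  rcases key i i' with e | e | e
  · exact e
  · rw [e] at a'; linarith
  · rw [e] at a'; linarith

theorem isOpen_table : IsOpen Q.table := isOpen_interior

theorem measurableSet_table : MeasurableSet Q.table := (isOpen_table Q).measurableSet

end Claimed.Agent.R081
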