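/-
Row 81, file StepA: geometry of one flight, in barycentric coordinates.
Notation: s = (y, v), b_k(r) = bc k (y + r v) = bc k y + r * lc k v  (`bc_add_smul`), hit k s = bc k y / (- lc k v).
table = {all bc > 0} (`mem_table_iff`), side i = {bc (i+2) = 0, bc i > 0, bc (i+1) > 0} (`mem_side_iff`);
in `Fin 3`: j + 1 + 2 = j, j + 1 + 1 = j + 2 (by `fin_cases`/`decide`/`omega`), and every k is j, j + 1 or j + 2.

* `adm_bc_nonneg`, `adm_bc_pos`: unfold `Adm`.  In the side case bc (i+2) y = 0 and lc (i+2) v > 0, the other two bc are > 0.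
* `step_spec`: tau = hit j s > 0 by `adm_bc_pos`.  b_j(tau) = 0.  For k ≠ j: if lc k v < 0 then tau < hit k s gives b_k(tau) > 0;
  if lc k v ≥ 0 then b_k(tau) ≥ bc k y ≥ 0 and one of the two inequalities is strict (`Adm`).
  For 0 < r < tau: b_j(r) > b_j(tau) = 0; for k ≠ j, b_k(r) is a convex combination of b_k(0) ≥ 0 and b_k(tau) > 0 with positive
  weight on the second.
* `exit_char`: j = i + 2.  b_j(tau') = 0 and b_j(tau'/2) > 0 give lc j v < 0 and tau' = hit j s.  For k ≠ j: b_k(tau') > 0,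
  so lc k v < 0 implies tau' < hit k s.
* `exitsVia_unique`: two strict inequalities in opposite directions.
* `not_reg_hits_vertex`: v ≠ 0 (`Circle.coe_ne_zero`), so J = {j | lc j v < 0} is nonempty (`exists_lc_neg`).  Choose j in J with
  hit j s minimal (`Finset.exists_min_image`).  Since `ExitsVia j s` fails there is k ≠ j in J with hit k s ≤ hit j s,
  hence equality; at tau = hit j s > 0 both b_j and b_k vanish: `eq_vertex_of_bc_eq_zero`.
-/
import Claimed.Agent.R081.ReflB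

set_option autoImplicit false

namespace Claimed.Agent.R081

open Claims.C0145 Claims.C0145.TriangularBilliards
open MeasureTheory Set

variable {Q : Triangle}

theorem stepA_adm_cases {s : Phase} (hs : Adm Q s) (k : Fin 3) :
    0 < bc Q k s.1 ∨ (bc Q k s.1 = 0 ∧ 0 < lc Q k (s.2 : ℂ)) := by
  rcases hs with h | ⟨i, h, hl⟩
  · exact Or.inl ((mem_table_iff Q).1 h k)
  · obtain ⟨h0, h1, h2⟩ := (mem_side_iff Q i).1 h
    rcases baryB_cases i k with rfl | rfl | rfl
    · exact Or.inl h1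
    · exact Or.inl h2
    · exact Or.inr ⟨h0, hl⟩

theorem adm_bc_nonneg {s : Phase} (hs : Adm Q s) (k : Fin 3) : 0 ≤ bc Q k s.1 := by
  rcases stepA_adm_cases hs k with h | ⟨h, _⟩
  · exact h.le
  · exact h.ge

theorem adm_bc_pos {s : Phase} (hs : Adm Q s) {k : Fin 3} (hk : lc Q k (s.2 : ℂ) ≤ 0) :
    0 < bc Q k s.1 := by
  rcases stepA_adm_cases hs k with h | ⟨_, h⟩
  · exact h
  · exact absurd h (not_lt.2 hk)

theorem hit_pos {s : Phase} (hs : Adm Q s) {j : Fin 3} (hj : lc Q j (s.2 : ℂ) < 0) :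
    0 < hit Q j s := by
  unfold hit
  exact div_pos (adm_bc_pos hs hj.le) (by linarith)

theorem bc_at_hit {s : Phase} {j : Fin 3} (hj : lc Q j (s.2 : ℂ) < 0) :
    bc Q j (s.1 + hit Q j s • (s.2 : ℂ)) = 0 := by
  rw [bc_add_smul]
  unfold hit
  have h : lc Q j (s.2 : ℂ) ≠ 0 := hj.ne
  field_simp
  ring

theorem stepA_hit_mul {s : Phase} {j : Fin 3} (hj : lc Q j (s.2 : ℂ) < 0) :
    bc Q j s.1 = - (hit Q j s * lc Q j (s.2 : ℂ)) := by
  have h := bc_at_hit (Q := Q) hj
  rw [bc_add_smul] at h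
  linarith

theorem stepA_other_pos {s : Phase} (hs : Adm Q s) {j : Fin 3} (hj : ExitsVia Q j s) {k : Fin 3}
    (hk : k ≠ j) : 0 < bc Q k (s.1 + hit Q j s • (s.2 : ℂ)) := by
  have hτ := hit_pos hs hj.1
  rw [bc_add_smul]
  rcases lt_or_ge (lc Q k (s.2 : ℂ)) 0 with hl | hl
  · have h1 := hj.2 k hk hl
    have h2 := stepA_hit_mul (Q := Q) hl
    rw [h2]
    nlinarith
  · rcases stepA_adm_cases hs k with h | ⟨h, h'⟩
    · have := mul_nonneg hτ.le hl
      linarith
    · have := mul_pos hτ h'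
      linarith

theorem step_spec_side {s : Phase} (hs : Adm Q s) {j : Fin 3} (hj : ExitsVia Q j s) :
    s.1 + hit Q j s • (s.2 : ℂ) ∈ Q.side (j + 1) := by
  rw [mem_side_iff]
  have e1 : j + 1 + 2 = j := (by decide : ∀ j : Fin 3, j + 1 + 2 = j) j
  have e2 : j + 1 + 1 = j + 2 := (by decide : ∀ j : Fin 3, j + 1 + 1 = j + 2) j
  obtain ⟨n1, n2, n3, n4, n5, n6⟩ := baryB_ne j
  rw [e1, e2]
  exact ⟨bc_at_hit hj.1, stepA_other_pos hs hj n4, stepA_other_pos hs hj n5⟩

theorem step_spec_inside {s : Phase} (hs : Adm Q s) {j : Fin 3} (hj : ExitsVia Q j s) {r : ℝ}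
    (h0 : 0 < r) (h1 : r < hit Q j s) : s.1 + r • (s.2 : ℂ) ∈ Q.table := by
  rw [mem_table_iff]
  intro k
  rw [bc_add_smul]
  by_cases hk : k = j
  · subst hk
    have h2 := stepA_hit_mul (Q := Q) hj.1
    rw [h2]
    have := hj.1
    nlinarith
  · have h2 := stepA_other_pos hs hj hk
    rw [bc_add_smul] at h2
    have h3 := adm_bc_nonneg hs k
    rcases lt_or_ge (lc Q k (s.2 : ℂ)) 0 with hl | hl
    · nlinarith
    · rcases stepA_adm_cases hs k with h | ⟨h, h'⟩
      · have := mul_nonneg h0.le hl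
        linarith
      · have := mul_pos h0 h'
        linarith

theorem exit_char {s : Phase} {τ : ℝ} {i : Fin 3} (hτ : 0 < τ)
    (hside : s.1 + τ • (s.2 : ℂ) ∈ Q.side i)
    (hin : ∀ r : ℝ, 0 < r → r < τ → s.1 + r • (s.2 : ℂ) ∈ Q.table) :
    ExitsVia Q (i + 2) s ∧ τ = hit Q (i + 2) s := by
  obtain ⟨h0, h1, h2⟩ := (mem_side_iff Q i).1 hside
  have hhalf := (mem_table_iff Q).1 (hin (τ / 2) (by linarith) (by linarith))
  rw [bc_add_smul] at h0 h1 h2
  have hj := hhalf (i + 2)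
  rw [bc_add_smul] at hj
  have hneg : lc Q (i + 2) (s.2 : ℂ) < 0 := by nlinarith
  have hτeq : τ = hit Q (i + 2) s := by
    unfold hit
    have hne : lc Q (i + 2) (s.2 : ℂ) ≠ 0 := hneg.ne
    field_simp
    linarith
  refine ⟨⟨hneg, ?_⟩, hτeq⟩
  intro k hk hl
  rw [← hτeq]
  have hpos : 0 < bc Q k s.1 + τ * lc Q k (s.2 : ℂ) := by
    rcases baryB_cases i k with rfl | rfl | rfl
    · exact h1
    · exact h2
    · exact absurd rfl hk
  have h3 := stepA_hit_mul (Q := Q) hl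
  rw [h3] at hpos
  nlinarith

theorem exitsVia_unique {s : Phase} {j j' : Fin 3} (h : ExitsVia Q j s) (h' : ExitsVia Q j' s) :
    j = j' := by
  by_contra hne
  have h1 := h.2 j' (fun e => hne e.symm) h'.1
  have h2 := h'.2 j hne h.1
  exact lt_asymm h1 h2

theorem exitC_eq {s : Phase} {j : Fin 3} (h : ExitsVia Q j s) : exitC Q s = j := by
  unfold exitC
  by_cases h0 : ExitsVia Q 0 s
  · rw [if_pos h0]; exact exitsVia_unique h0 h
  · rw [if_neg h0]
    by_cases h1 : ExitsVia Q 1 s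
    · rw [if_pos h1]; exact exitsVia_unique h1 h
    · rw [if_neg h1]
      have : ∀ j : Fin 3, j = 0 ∨ j = 1 ∨ j = 2 := by decide
      rcases this j with rfl | rfl | rfl
      · exact absurd h h0
      · exact absurd h h1
      · rfl

theorem exitsVia_exitC {s : Phase} (h : Reg Q s) : ExitsVia Q (exitC Q s) s := by
  obtain ⟨j, hj⟩ := h
  rw [exitC_eq hj]
  exact hj

theorem not_reg_hits_vertex {s : Phase} (hs : Adm Q s) (h : ¬ Reg Q s) :
    ∃ τ : ℝ, 0 < τ ∧ ∃ l : Fin 3, s.1 + τ • (s.2 : ℂ) = Q.vertex l := by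
  have hv : (s.2 : ℂ) ≠ 0 := Circle.coe_ne_zero s.2
  obtain ⟨j0, hj0⟩ := exists_lc_neg Q hv
  let J : Finset (Fin 3) := Finset.univ.filter (fun j => lc Q j (s.2 : ℂ) < 0)
  have hJ : J.Nonempty := ⟨j0, by simp [J, hj0]⟩
  obtain ⟨j, hjJ, hmin⟩ := Finset.exists_min_image J (fun j => hit Q j s) hJ
  have hj : lc Q j (s.2 : ℂ) < 0 := by simpa [J] using hjJ
  have hnot : ¬ ExitsVia Q j s := fun e => h ⟨j, e⟩
  unfold ExitsVia at hnot
  push Not at hnot
  obtain ⟨k, hkj, hk, hle⟩ := hnot hj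
  have hge : hit Q j s ≤ hit Q k s := hmin k (by simp [J, hk])
  have heq : hit Q k s = hit Q j s := le_antisymm hle hge
  refine ⟨hit Q j s, hit_pos hs hj, ?_⟩
  have b1 := bc_at_hit (Q := Q) hj
  have b2 := bc_at_hit (Q := Q) hk
  rw [heq] at b2
  exact eq_vertex_of_bc_eq_zero Q (fun e => hkj e.symm) b1 b2

end Claimed.Agent.R081
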