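/-
Row 81, file StepB: the map `step` on regular admissible states (consequences of StepA for `exitT`, `exitW`, `step`).
With j = exitC Q s one has `ExitsVia Q j s` (`exitsVia_exitC`), exitT = hit j, exitW = j + 1, and (j + 1) + 2 = j in `Fin 3`.
* `adm_step`: the new point lies on side (j + 1) (`step_spec_side`); the new direction is `rdir (j+1) v`, whose coercion is
  `reflect (tangent (j+1)) v` (`coe_rdir`), and lc ((j+1)+2) of it is - lc j v > 0 (`lc_reflect`).
* `step_eq_of_exit`: from `exit_char`: exitC = i + 2 (`exitC_eq`), so exitW = i + 2 + 1 = i and exitT = tau.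
-/
import Claimed.Agent.R081.StepA

set_option autoImplicit false

namespace Claimed.Agent.R081

open Claims.C0145 Claims.C0145.TriangularBilliards
open MeasureTheory Set

variable {Q : Triangle}

theorem exitT_pos {s : Phase} (hs : Adm Q s) (h : Reg Q s) : 0 < exitT Q s :=
  hit_pos hs (exitsVia_exitC h).1

theorem step_mem_side {s : Phase} (hs : Adm Q s) (h : Reg Q s) :
    (step Q s).1 ∈ Q.side (exitW Q s) :=
  step_spec_side hs (exitsVia_exitC h)

theorem step_inside {s : Phase} (hs : Adm Q s) (h : Reg Q s) {r : ℝ} (h0 : 0 < r)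
    (h1 : r < exitT Q s) : s.1 + r • (s.2 : ℂ) ∈ Q.table :=
  step_spec_inside hs (exitsVia_exitC h) h0 h1

theorem adm_step {s : Phase} (hs : Adm Q s) (h : Reg Q s) : Adm Q (step Q s) := by
  refine Or.inr ⟨exitW Q s, step_mem_side hs h, ?_⟩
  show 0 < lc Q (exitW Q s + 2) ((rdir Q (exitW Q s) s.2 : Circle) : ℂ)
  rw [coe_rdir, lc_reflect]
  have h1 : exitW Q s + 2 = exitC Q s := by
    unfold exitW
    generalize exitC Q s = j
    fin_cases j <;> rfl
  rw [h1]
  have := (exitsVia_exitC h).1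
  linarith

theorem coe_step_dir (s : Phase) :
    ((step Q s).2 : ℂ) = reflect (Q.tangent (exitW Q s)) (s.2 : ℂ) :=
  coe_rdir Q _ _

/-- any exit datum of a state is the canonical one -/
theorem exit_canon {s : Phase} {τ : ℝ} {i : Fin 3} (hτ : 0 < τ)
    (hside : s.1 + τ • (s.2 : ℂ) ∈ Q.side i)
    (hin : ∀ r : ℝ, 0 < r → r < τ → s.1 + r • (s.2 : ℂ) ∈ Q.table) :
    Reg Q s ∧ exitT Q s = τ ∧ exitW Q s = i := by
  obtain ⟨h1, h2⟩ := exit_char hτ hside hin
  have h3 := exitC_eq h1
  refine ⟨⟨_, h1⟩, ?_, ?_⟩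
  · unfold exitT
    rw [h3]
    exact h2.symm
  · unfold exitW
    rw [h3]
    fin_cases i <;> rfl

end Claimed.Agent.R081
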