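/-
Row 81, file CanonA: the canonical forward orbit `fs, ft, fw` is a half chain when all steps are regular, and conversely every half
chain is the canonical one.
* `adm_fs`: induction on n; n = 0: `Or.inl`; step: `adm_step` (the hypothesis for n + 1 restricts to n).
* `halfOfGoodF`: with s = fs n z (admissible by `adm_fs`, regular by hypothesis): fs (n+1) z = step s, ft (n+1) z = ft n z + exitT s,
  fw (n+1) z = exitW s (all by `rfl`/`simp [fs, ft, fw]`).  mono: `strictMono_nat_of_lt_succ`, `exitT_pos`; on_side: `step_mem_side`;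
  flight: definition of `step`; inside: `step_inside` with r = t - ft n z; specular: `coe_step_dir`.
* `half_canon`: induction on n for the first three equalities.  Given them at n, apply `exit_canon` to s = fs n z,
  tau = h.time (n+1) - h.time n > 0 (`mono`), i = h.wall (n+1): hside from `h.flight n`, `h.on_side n`; hin from `h.inside n` at time
  h.time n + r.  This yields Reg, exitT = tau, exitW = i, hence the equalities at n + 1; for the direction use
  `Circle.ext`/`Subtype.ext` with `coe_step_dir` and `h.specular n`.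
-/
import Claimed.Agent.R081.StepB

set_option autoImplicit false

namespace Claimed.Agent.R081

open Claims.C0145 Claims.C0145.TriangularBilliards
open MeasureTheory Set

variable {Q : Triangle} {z : Phase}

theorem adm_fs {n : ℕ} (h : RegUpTo Q n z) : Adm Q (fs Q n z) := by
  induction n with
  | zero => exact Or.inl h.1
  | succ n ih =>
    have h' : RegUpTo Q n z := ⟨h.1, fun k hk => h.2 k (Nat.lt_succ_of_lt hk)⟩
    exact adm_step (ih h') (h.2 n (Nat.lt_succ_self n))

theorem GoodF.regUpTo (h : GoodF Q z) (n : ℕ) : RegUpTo Q n z := ⟨h.1, fun k _ => h.2 k⟩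

noncomputable def halfOfGoodF (h : GoodF Q z) : HalfChain Q z where
  time n := ft Q n z
  point n := (fs Q n z).1
  dir n := (fs Q n z).2
  wall n := fw Q n z
  time_zero := rfl
  point_zero := rfl
  dir_zero := rfl
  start_mem := h.1
  mono := by
    refine strictMono_nat_of_lt_succ fun n => ?_
    have := exitT_pos (adm_fs (h.regUpTo n)) (h.2 n)
    show ft Q n z < ft Q n z + exitT Q (fs Q n z)
    linarith
  on_side := fun n => step_mem_side (adm_fs (h.regUpTo n)) (h.2 n)
  flight := by
    intro n
    show (step Q (fs Q n z)).1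
      = (fs Q n z).1 + (ft Q n z + exitT Q (fs Q n z) - ft Q n z) • ((fs Q n z).2 : ℂ)
    rw [add_sub_cancel_left]
    rfl
  inside := by
    intro n t h0 h1
    refine step_inside (adm_fs (h.regUpTo n)) (h.2 n) (sub_pos.2 h0) ?_
    have h1' : t < ft Q n z + exitT Q (fs Q n z) := h1
    linarith
  specular := fun n => coe_step_dir (fs Q n z)

/-- the first three equalities at `n` give everything at `n`, and the three equalities at `n + 1`. -/
theorem canonA_half_step (h : HalfChain Q z) (n : ℕ) (h1 : h.time n = ft Q n z)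
    (h2 : h.point n = (fs Q n z).1) (h3 : h.dir n = (fs Q n z).2) :
    Reg Q (fs Q n z) ∧ h.wall (n + 1) = fw Q (n + 1) z ∧ h.time (n + 1) = ft Q (n + 1) z ∧
      h.point (n + 1) = (fs Q (n + 1) z).1 ∧ h.dir (n + 1) = (fs Q (n + 1) z).2 := by
  have hτ : 0 < h.time (n + 1) - h.time n := sub_pos.2 (h.mono (Nat.lt_succ_self n))
  have hside : (fs Q n z).1 + (h.time (n + 1) - h.time n) • ((fs Q n z).2 : ℂ)
      ∈ Q.side (h.wall (n + 1)) := by
    rw [← h2, ← h3, ← h.flight n]
    exact h.on_side n
  have hin : ∀ r : ℝ, 0 < r → r < h.time (n + 1) - h.time n →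
      (fs Q n z).1 + r • ((fs Q n z).2 : ℂ) ∈ Q.table := by
    intro r hr0 hr1
    have := h.inside n (h.time n + r) (by linarith) (by linarith)
    rw [add_sub_cancel_left, h2, h3] at this
    exact this
  obtain ⟨hreg, hT, hW⟩ := exit_canon hτ hside hin
  refine ⟨hreg, ?_, ?_, ?_, ?_⟩
  · exact hW.symm
  · show h.time (n + 1) = ft Q n z + exitT Q (fs Q n z)
    rw [hT, ← h1]
    ring
  · show h.point (n + 1) = (fs Q n z).1 + exitT Q (fs Q n z) • ((fs Q n z).2 : ℂ)
    rw [hT, h.flight n, h2, h3]
  · apply Circle.ext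
    show (h.dir (n + 1) : ℂ) = ((step Q (fs Q n z)).2 : ℂ)
    rw [coe_step_dir, h.specular n, hW, h3]

theorem canonA_half_three (h : HalfChain Q z) (n : ℕ) :
    h.time n = ft Q n z ∧ h.point n = (fs Q n z).1 ∧ h.dir n = (fs Q n z).2 := by
  induction n with
  | zero => exact ⟨h.time_zero, h.point_zero, h.dir_zero⟩
  | succ n ih =>
    obtain ⟨h1, h2, h3⟩ := ih
    exact (canonA_half_step h n h1 h2 h3).2.2

theorem half_canon (h : HalfChain Q z) (n : ℕ) :
    h.time n = ft Q n z ∧ h.point n = (fs Q n z).1 ∧ h.dir n = (fs Q n z).2 ∧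
      Reg Q (fs Q n z) ∧ h.wall (n + 1) = fw Q (n + 1) z := by
  obtain ⟨h1, h2, h3⟩ := canonA_half_three h n
  have := canonA_half_step h n h1 h2 h3
  exact ⟨h1, h2, h3, this.1, this.2.1⟩

theorem goodF_of_half (h : HalfChain Q z) : GoodF Q z :=
  ⟨h.start_mem, fun n => (half_canon h n).2.2.2.1⟩

end Claimed.Agent.R081
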