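/-
Row 81, file ChainA: first consequences of the structure `FlightChain` (no geometry).
* `chain_ext`: `cases c; cases d; simp_all` (a structure whose other fields are propositions).
* `chain_exists_index`: {n | time n ≤ t} is nonempty (`unbounded_below`) and bounded above (`unbounded_above` + `increasing`);
  take the greatest element (`Int.exists_greatest_of_bdd`).
* `chain_index_unique`: strict monotonicity (`StrictMono.lt_iff_lt`) + `Int.lt_add_one_iff`/omega.
* `chain_at_eq`: unfold `FlightChain.at`, `dif_pos`, `Classical.choose_spec`, `chain_index_unique`.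
* `chain_start_mem`: `inside 0 0` and `start_point`.
-/
import Claimed.Agent.R081.Defs

set_option autoImplicit false

namespace Claimed.Agent.R081

open Claims.C0145 Claims.C0145.TriangularBilliards
open MeasureTheory Set

variable {Q : Triangle} {z : Phase}

theorem chain_ext (c d : FlightChain Q z) (h1 : c.time = d.time) (h2 : c.point = d.point)
    (h3 : c.direction = d.direction) (h4 : c.wall = d.wall) : c = d := by
  cases c
  cases d
  simp_all

theorem chain_exists_index (c : FlightChain Q z) (t : ℝ) :
    ∃ n : ℤ, c.time n ≤ t ∧ t < c.time (n + 1) := by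
  obtain ⟨a, ha⟩ := c.unbounded_below t
  obtain ⟨b, hb⟩ := c.unbounded_above t
  have hbdd : ∃ b : ℤ, ∀ n : ℤ, c.time n ≤ t → n ≤ b := by
    refine ⟨b, fun n hn => ?_⟩
    by_contra hlt
    have := c.increasing (not_le.1 hlt)
    linarith
  obtain ⟨n, hn, hmax⟩ := Int.exists_greatest_of_bdd (P := fun n => c.time n ≤ t) hbdd ⟨a, ha.le⟩
  refine ⟨n, hn, ?_⟩
  by_contra hle
  have := hmax (n + 1) (not_lt.1 hle)
  omega

theorem chain_index_unique (c : FlightChain Q z) {t : ℝ} {n m : ℤ}
    (hn : c.time n ≤ t ∧ t < c.time (n + 1)) (hm : c.time m ≤ t ∧ t < c.time (m + 1)) : n = m := by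
  have h1 : n < m + 1 := c.increasing.lt_iff_lt.1 (lt_of_le_of_lt hn.1 hm.2)
  have h2 : m < n + 1 := c.increasing.lt_iff_lt.1 (lt_of_le_of_lt hm.1 hn.2)
  omega

theorem chain_at_eq (c : FlightChain Q z) {t : ℝ} {n : ℤ} (h1 : c.time n ≤ t)
    (h2 : t < c.time (n + 1)) :
    c.at t = (c.point n + (t - c.time n) • (c.direction n : ℂ), c.direction n) := by
  have h : ∃ n : ℤ, c.time n ≤ t ∧ t < c.time (n + 1) := ⟨n, h1, h2⟩
  have e : Classical.choose h = n := chain_index_unique c (Classical.choose_spec h) ⟨h1, h2⟩
  unfold FlightChain.at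
  rw [dif_pos h]
  simp only [e]

theorem chain_start_mem (c : FlightChain Q z) : z.1 ∈ Q.table := by
  have h := c.inside 0 0 c.zero_before (by simpa using c.zero_after)
  rw [c.start_point]
  simpa using h

theorem chain_at_zero (c : FlightChain Q z) : c.at 0 = z := by
  rw [chain_at_eq c (n := 0) c.zero_before.le (by simpa using c.zero_after)]
  refine Prod.ext ?_ ?_
  · rw [c.start_point]; simp
  · exact c.start_direction.symm

/-- between two collisions the point of the chain is in the table -/
theorem chain_at_mem (c : FlightChain Q z) {t : ℝ} {n : ℤ} (h1 : c.time n < t)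
    (h2 : t < c.time (n + 1)) : (c.at t).1 ∈ Q.table := by
  rw [chain_at_eq c h1.le h2]
  exact c.inside n t h1 h2

end Claimed.Agent.R081
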