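/-
Row 81, file ChainFwd: the forward half of a flight chain (index 0 is replaced by the starting point at time 0).
* mono: `strictMono_nat_of_lt_succ`; 0 < time 1 is `zero_after`, the rest is `increasing`.
* flight 0 / inside 0: `start_point` gives z.1 + s dir 0 = point 0 + (s - time 0) dir 0; use `c.flight 0`, `c.inside 0`
  (`zero_before`).
* all other fields: the field of c at the index (n : Z) (push casts: ((n + 1 : Nat) : Z) = n + 1, and (n + 1) - 1 = n).
-/
import Claimed.Agent.R081.ChainA

set_option autoImplicit false

namespace Claimed.Agent.R081

open Claims.C0145 Claims.C0145.TriangularBilliards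
open MeasureTheory Set

variable {Q : Triangle} {z : Phase}

noncomputable def chainFwd (c : FlightChain Q z) : HalfChain Q z where
  time n := if n = 0 then 0 else c.time (n : ℤ)
  point n := if n = 0 then z.1 else c.point (n : ℤ)
  dir n := c.direction (n : ℤ)
  wall n := c.wall (n : ℤ)
  time_zero := by
    simp
  point_zero := by
    simp
  dir_zero := by
    simpa using c.start_direction.symm
  start_mem := by
    exact chain_start_mem c
  mono := by
    apply strictMono_nat_of_lt_succ
    intro n
    rcases Nat.eq_zero_or_pos n with rfl | hn
    · simpa using c.zero_after
    · have h1 : n ≠ 0 := by omega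
      have h2 : n + 1 ≠ 0 := by omega
      simp only [h1, h2, if_false]
      apply c.increasing
      push_cast
      omega
  on_side := by
    intro n
    have h2 : n + 1 ≠ 0 := by omega
    simp only [h2, if_false]
    exact c.on_side _
  flight := by
    intro n
    have h2 : n + 1 ≠ 0 := by omega
    have hf := c.flight (n : ℤ)
    rcases Nat.eq_zero_or_pos n with rfl | hn
    · simp only [h2, if_false, if_true]
      have hf0 := c.flight 0
      rw [c.start_point]
      push_cast
      simp only [zero_add] at hf0 ⊢
      rw [hf0, add_assoc, ← add_smul]
      congr 2
      ring
    · have h1 : n ≠ 0 := by omega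
      simp only [h1, h2, if_false]
      push_cast
      exact hf
  inside := by
    intro n t
    have h2 : n + 1 ≠ 0 := by omega
    rcases Nat.eq_zero_or_pos n with rfl | hn
    · simp only [h2, if_false, if_true]
      intro h0 h1
      have hi := c.inside 0 t (lt_trans c.zero_before h0) (by simpa using h1)
      rw [c.start_point]
      simp only [Nat.cast_zero]
      rw [add_assoc, ← add_smul]
      have e : -c.time 0 + (t - 0) = t - c.time 0 := by ring
      rw [e]
      exact hi
    · have h1 : n ≠ 0 := by omega
      simp only [h1, h2, if_false]
      intro ha hb
      exact c.inside (n : ℤ) t ha (by push_cast at hb; exact hb)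
  specular := by
    intro n
    have h := c.specular ((n : ℤ) + 1)
    simp only [add_sub_cancel_right] at h
    push_cast
    exact h

end Claimed.Agent.R081
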