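/-
Row 81, file GlueDefs: gluing a half chain h₁ of z and a half chain h₂ of `ng z` to Z-indexed data; evaluation lemmas.
Everything here is `unfold`, `if_pos`/`if_neg` with `omega`, and `Int.toNat` arithmetic (`Int.toNat_natCast`, `omega`,
e.g. `show (1 - (-(n:ℤ))).toNat = n + 1 by omega`).
`gdir_neg` for n = 0 uses `h₁.dir_zero`, `h₂.dir_zero` and `ng`: - (- z.2) = z.2.
-/
import Claimed.Agent.R081.Defs

set_option autoImplicit false

namespace Claimed.Agent.R081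

open Claims.C0145 Claims.C0145.TriangularBilliards
open MeasureTheory Set

noncomputable section

variable {Q : Triangle} {z : Phase} (h₁ : HalfChain Q z) (h₂ : HalfChain Q (ng z))

def gtime (n : ℤ) : ℝ := if 1 ≤ n then h₁.time n.toNat else - h₂.time (1 - n).toNat

def gpoint (n : ℤ) : ℂ := if 1 ≤ n then h₁.point n.toNat else h₂.point (1 - n).toNat

def gwall (n : ℤ) : Fin 3 := if 1 ≤ n then h₁.wall n.toNat else h₂.wall (1 - n).toNat

def gdir (n : ℤ) : Circle := if 0 ≤ n then h₁.dir n.toNat else - h₂.dir (-n).toNat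

/-- every integer is `n + 1` or `-n` for a natural number n -/
theorem int_cases {P : ℤ → Prop} (hp : ∀ n : ℕ, P ((n : ℤ) + 1)) (hn : ∀ n : ℕ, P (-(n : ℤ)))
    (m : ℤ) : P m := by
  by_cases h : 1 ≤ m
  · have := hp (m - 1).toNat
    have e : (((m - 1).toNat : ℕ) : ℤ) + 1 = m := by omega
    rwa [e] at this
  · have := hn (-m).toNat
    have e : -(((-m).toNat : ℕ) : ℤ) = m := by omega
    rwa [e] at this

theorem gtime_pos (n : ℕ) : gtime h₁ h₂ ((n : ℤ) + 1) = h₁.time (n + 1) := by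
  have h : (1 : ℤ) ≤ (n : ℤ) + 1 := by omega
  have e : ((n : ℤ) + 1).toNat = n + 1 := by omega
  unfold gtime
  rw [if_pos h, e]

theorem gtime_neg (n : ℕ) : gtime h₁ h₂ (-(n : ℤ)) = - h₂.time (n + 1) := by
  have h : ¬ (1 : ℤ) ≤ -(n : ℤ) := by omega
  have e : (1 - (-(n : ℤ))).toNat = n + 1 := by omega
  unfold gtime
  rw [if_neg h, e]

theorem gpoint_pos (n : ℕ) : gpoint h₁ h₂ ((n : ℤ) + 1) = h₁.point (n + 1) := by
  have h : (1 : ℤ) ≤ (n : ℤ) + 1 := by omega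
  have e : ((n : ℤ) + 1).toNat = n + 1 := by omega
  unfold gpoint
  rw [if_pos h, e]

theorem gpoint_neg (n : ℕ) : gpoint h₁ h₂ (-(n : ℤ)) = h₂.point (n + 1) := by
  have h : ¬ (1 : ℤ) ≤ -(n : ℤ) := by omega
  have e : (1 - (-(n : ℤ))).toNat = n + 1 := by omega
  unfold gpoint
  rw [if_neg h, e]

theorem gwall_pos (n : ℕ) : gwall h₁ h₂ ((n : ℤ) + 1) = h₁.wall (n + 1) := by
  have h : (1 : ℤ) ≤ (n : ℤ) + 1 := by omega
  have e : ((n : ℤ) + 1).toNat = n + 1 := by omega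
  unfold gwall
  rw [if_pos h, e]

theorem gwall_neg (n : ℕ) : gwall h₁ h₂ (-(n : ℤ)) = h₂.wall (n + 1) := by
  have h : ¬ (1 : ℤ) ≤ -(n : ℤ) := by omega
  have e : (1 - (-(n : ℤ))).toNat = n + 1 := by omega
  unfold gwall
  rw [if_neg h, e]

theorem gdir_nat (n : ℕ) : gdir h₁ h₂ (n : ℤ) = h₁.dir n := by
  have h : (0 : ℤ) ≤ (n : ℤ) := by omega
  unfold gdir
  rw [if_pos h, Int.toNat_natCast]

theorem gdir_neg (n : ℕ) : gdir h₁ h₂ (-(n : ℤ)) = - h₂.dir n := by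
  cases n with
  | zero =>
    have h : (0 : ℤ) ≤ -((0 : ℕ) : ℤ) := by simp
    have e : (-((0 : ℕ) : ℤ)).toNat = 0 := by simp
    unfold gdir
    rw [if_pos h, e, h₁.dir_zero, h₂.dir_zero]
    show z.2 = - (- z.2)
    rw [neg_neg]
  | succ k =>
    have h : ¬ (0 : ℤ) ≤ -((k + 1 : ℕ) : ℤ) := by omega
    have e : (-(-((k + 1 : ℕ) : ℤ))).toNat = k + 1 := by omega
    unfold gdir
    rw [if_neg h, e]

end

end Claimed.Agent.R081
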