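/-
Row 81, file ReflA: the reflection `reflect e v = (e / conj e) * conj v`, its action on points (`rpt`), directions (`rdir`),
barycentric coordinates, and the cross product `crs v u = Im (conj v * u)`.
Everything is a direct computation in the complex numbers.  `star` on the complex numbers is `conj`
(`Complex.star_def`).  For `lc_reflect`: write v = a e + b (I e) with a b real (e ≠ 0), then reflect e e = e,
reflect e (I e) = -(I e), and lc (i+2) e = 0 (`lc_tangent`).
-/
import Claimed.Agent.R081.BaryB

set_option autoImplicit false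

namespace Claimed.Agent.R081

open Claims.C0145 Claims.C0145.TriangularBilliards
open MeasureTheory Set

theorem reflect_add (e v w : ℂ) : reflect e (v + w) = reflect e v + reflect e w := by
  unfold reflect
  rw [star_add, mul_add]

theorem reflect_smul (e : ℂ) (r : ℝ) (v : ℂ) : reflect e (r • v) = r • reflect e v := by
  unfold reflect
  rw [Complex.real_smul, Complex.real_smul, star_mul', Complex.star_def,
    Complex.conj_ofReal]
  ring

theorem reflect_neg (e v : ℂ) : reflect e (-v) = - reflect e v := by
  unfold reflect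
  rw [star_neg, mul_neg]

theorem reflect_self {e : ℂ} (he : e ≠ 0) : reflect e e = e := by
  unfold reflect
  have h : star e ≠ 0 := star_ne_zero.mpr he
  field_simp

theorem reflect_reflect {e : ℂ} (he : e ≠ 0) (v : ℂ) : reflect e (reflect e v) = v := by
  unfold reflect
  have h : star e ≠ 0 := star_ne_zero.mpr he
  rw [star_mul', star_div₀, star_star, star_star]
  field_simp

theorem norm_reflect {e : ℂ} (he : e ≠ 0) (v : ℂ) : ‖reflect e v‖ = ‖v‖ := by
  unfold reflect
  have h : ‖e‖ ≠ 0 := norm_ne_zero_iff.mpr he
  rw [norm_mul, norm_div, norm_star, norm_star, div_self h, one_mul]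

theorem crs_self (v : ℂ) : crs v v = 0 := by
  unfold crs
  simp [Complex.mul_im]
  ring

theorem crs_add_right (v u w : ℂ) : crs v (u + w) = crs v u + crs v w := by
  unfold crs
  rw [mul_add, Complex.add_im]

theorem crs_smul_right (v : ℂ) (r : ℝ) (u : ℂ) : crs v (r • u) = r * crs v u := by
  unfold crs
  rw [mul_smul_comm, Complex.smul_im, smul_eq_mul]

theorem abs_crs_le (v u : ℂ) : |crs v u| ≤ ‖v‖ * ‖u‖ := by
  unfold crs
  calc |((starRingEnd ℂ) v * u).im| ≤ ‖(starRingEnd ℂ) v * u‖ := Complex.abs_im_le_norm _
    _ = ‖v‖ * ‖u‖ := by rw [norm_mul, Complex.norm_conj]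

/-- reflecting the first argument in the line spanned by the second one changes the sign -/
theorem crs_reflect {e : ℂ} (he : e ≠ 0) (v : ℂ) (r : ℝ) :
    crs (reflect e v) (r • e) = - crs v (r • e) := by
  rw [crs_smul_right, crs_smul_right]
  have h : star e ≠ 0 := star_ne_zero.mpr he
  have key : (starRingEnd ℂ) (reflect e v) * e = (starRingEnd ℂ) ((starRingEnd ℂ) v * e) := by
    unfold reflect
    rw [Complex.star_def] at *
    rw [map_mul, map_mul, map_div₀, Complex.conj_conj, Complex.conj_conj]
    field_simp
  unfold crs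
  rw [key, Complex.conj_im]
  ring

theorem exists_smul_of_crs_eq_zero {e v : ℂ} (he : e ≠ 0) (h : crs v e = 0) : ∃ a : ℝ, v = a • e := by
  unfold crs at h
  -- `conj v * e` is real, so `v * conj e` is real, `v = (v * conj e / |e|^2) e`
  have hn : Complex.normSq e ≠ 0 := by
    rw [Ne, Complex.normSq_eq_zero]; exact he
  refine ⟨((starRingEnd ℂ) v * e).re / Complex.normSq e, ?_⟩
  have h1 : (starRingEnd ℂ) v * e = (((starRingEnd ℂ) v * e).re : ℂ) := by
    apply Complex.ext
    · simp
    · simpa using h
  have h2 : v * (starRingEnd ℂ) e = (((starRingEnd ℂ) v * e).re : ℂ) := by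
    have := congrArg (starRingEnd ℂ) h1
    rw [map_mul, Complex.conj_conj, Complex.conj_ofReal] at this
    exact this
  have h3 : e * (starRingEnd ℂ) e = (Complex.normSq e : ℂ) := Complex.mul_conj e
  have hc : (starRingEnd ℂ) e ≠ 0 := by
    rw [Ne, map_eq_zero]; exact he
  have hn' : (Complex.normSq e : ℂ) ≠ 0 := by exact_mod_cast hn
  rw [Complex.real_smul, Complex.ofReal_div, ← h2, ← h3]
  field_simp

end Claimed.Agent.R081
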