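/-
Row 81, file ReflB: the reflection `reflect e v = (e / conj e) * conj v`, its action on points (`rpt`), directions (`rdir`),
barycentric coordinates, and the cross product `crs v u = Im (conj v * u)`.
Everything is a direct computation in the complex numbers.  `star` on the complex numbers is `conj`
(`Complex.star_def`).  For `lc_reflect`: write v = a e + b (I e) with a b real (e ≠ 0), then reflect e e = e,
reflect e (I e) = -(I e), and lc (i+2) e = 0 (`lc_tangent`).
-/
import Claimed.Agent.R081.ReflA

set_option autoImplicit false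

namespace Claimed.Agent.R081

open Claims.C0145 Claims.C0145.TriangularBilliards
open MeasureTheory Set

variable (Q : Triangle)

theorem coe_unitOf (i : Fin 3) :
    (unitOf Q i : ℂ) = Q.tangent i / star (Q.tangent i) := by
  unfold unitOf
  rw [Circle.coe_inv, Circle.ofConjDivSelf_coe, inv_div, Complex.star_def]

theorem coe_rdir (i : Fin 3) (v : Circle) : (rdir Q i v : ℂ) = reflect (Q.tangent i) (v : ℂ) := by
  unfold rdir reflect
  rw [Circle.coe_mul, coe_unitOf, Circle.coe_inv_eq_conj, Complex.star_def]

theorem rdir_rdir (i : Fin 3) (v : Circle) : rdir Q i (rdir Q i v) = v := by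
  unfold rdir
  rw [mul_inv, inv_inv, mul_inv_cancel_left]

theorem rdir_neg (i : Fin 3) (v : Circle) : rdir Q i (-v) = - rdir Q i v := by
  apply Circle.ext
  rw [coe_rdir, Circle.coe_neg, Circle.coe_neg, coe_rdir, reflect_neg]

theorem continuous_rdir (i : Fin 3) : Continuous (rdir Q i) := by
  unfold rdir
  exact continuous_const.mul continuous_inv

theorem rpt_rpt (i : Fin 3) (x : ℂ) : rpt Q i (rpt Q i x) = x := by
  unfold rpt
  rw [add_sub_cancel_left, reflect_reflect (tangent_ne_zero Q i)]
  ring

theorem rpt_add_smul (i : Fin 3) (x : ℂ) (s : ℝ) (v : ℂ) :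
    rpt Q i (x + s • v) = rpt Q i x + s • reflect (Q.tangent i) v := by
  unfold rpt
  rw [show x + s • v - Q.vertex i = (x - Q.vertex i) + s • v by ring, reflect_add, reflect_smul]
  ring

theorem continuous_rpt (i : Fin 3) : Continuous (rpt Q i) := by
  unfold rpt reflect
  exact continuous_const.add
    (continuous_const.mul (continuous_star.comp (continuous_id.sub continuous_const)))

/-- points of the line carrying side i are fixed -/
theorem rpt_of_bc_eq_zero (i : Fin 3) {x : ℂ} (h : bc Q (i + 2) x = 0) : rpt Q i x = x := by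
  obtain ⟨r, hr⟩ := (exists_smul_tangent_of_bc_eq_zero Q i h).1
  unfold rpt
  rw [hr, reflect_smul, reflect_self (tangent_ne_zero Q i), ← hr]
  ring

/-- `v + reflect e v` is a real multiple of `e`. -/
theorem ReflB_add_reflect {e : ℂ} (he : e ≠ 0) (v : ℂ) :
    v + reflect e v = (2 * (v / e).re : ℝ) • e := by
  have hce : (starRingEnd ℂ) e ≠ 0 := (map_ne_zero _).mpr he
  have h1 : reflect e v = e * (starRingEnd ℂ) (v / e) := by
    unfold reflect
    rw [Complex.star_def, map_div₀]
    field_simp
  have h2 : v = e * (v / e) := by field_simp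
  have h3 : v / e + (starRingEnd ℂ) (v / e) = ((2 * (v / e).re : ℝ) : ℂ) := Complex.add_conj _
  calc v + reflect e v = e * (v / e) + e * (starRingEnd ℂ) (v / e) := by rw [h1, ← h2]
    _ = e * (v / e + (starRingEnd ℂ) (v / e)) := by ring
    _ = e * ((2 * (v / e).re : ℝ) : ℂ) := by rw [h3]
    _ = (2 * (v / e).re : ℝ) • e := by rw [Complex.real_smul]; ring

theorem lc_reflect (i : Fin 3) (v : ℂ) :
    lc Q (i + 2) (reflect (Q.tangent i) v) = - lc Q (i + 2) v := by
  have h := congrArg (lc Q (i + 2)) (ReflB_add_reflect (tangent_ne_zero Q i) v)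
  rw [lc_add, lc_smul, lc_tangent, mul_zero] at h
  linarith

theorem rph_rph (i : Fin 3) (z : Phase) : rph Q i (rph Q i z) = z := by
  unfold rph
  exact Prod.ext (rpt_rpt Q i z.1) (rdir_rdir Q i z.2)

theorem foldL_unfoldL (w : List (Fin 3)) (z : Phase) : foldL Q w (unfoldL Q w z) = z := by
  induction w generalizing z with
  | nil => rfl
  | cons i w ih =>
    show rph Q i (foldL Q w (unfoldL Q w (rph Q i z))) = z
    rw [ih, rph_rph]

theorem unfoldL_foldL (w : List (Fin 3)) (z : Phase) : unfoldL Q w (foldL Q w z) = z := by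
  induction w generalizing z with
  | nil => rfl
  | cons i w ih =>
    show unfoldL Q w (rph Q i (rph Q i (foldL Q w z))) = z
    rw [rph_rph, ih]

theorem tr_tr (s t : ℝ) (z : Phase) : tr s (tr t z) = tr (s + t) z := by
  unfold tr
  refine Prod.ext ?_ rfl
  show z.1 + t • (z.2 : ℂ) + s • (z.2 : ℂ) = z.1 + (s + t) • (z.2 : ℂ)
  rw [add_smul]; ring

theorem tr_zero (z : Phase) : tr 0 z = z := by
  unfold tr
  refine Prod.ext ?_ rfl
  show z.1 + (0 : ℝ) • (z.2 : ℂ) = z.1
  rw [zero_smul, add_zero]

theorem ng_ng (z : Phase) : ng (ng z) = z := by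
  unfold ng
  exact Prod.ext rfl (neg_neg z.2)

end Claimed.Agent.R081
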