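/-
Row 81, file NoAccA: collisions of a half chain do not accumulate, part A.
* `HalfChain.lc_pos`: put i = wall (n+1), p = point (n+1), v = dir (n+1).  bc (i+2) p = 0 (`mem_side_iff`).  `inside (n+1)` at the
  middle time t = (time (n+1) + time (n+2)) / 2 and `mem_table_iff`, `bc_add_smul` give 0 < (t - time (n+1)) * lc (i+2) v.
* `HalfChain.walls_ne`: if both walls are i then bc (i+2) vanishes at point (n+1) and at point (n+2) = point (n+1) + d v, d > 0
  (`flight`, `mono`), so lc (i+2) v = 0, against `lc_pos`.
* `HalfChain.dist_point_le`: induction on m, triangle inequality, `flight`, the norm of a point of the circle is 1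
  (`Circle.norm_coe`).
* `HalfChain.exists_limit`: the times are monotone and bounded, so they converge to some L (`tendsto_atTop_ciSup`) and
  time n ≤ L; `cauchySeq_of_le_tendsto_0` with b N = L - time N; `cauchySeq_tendsto_of_complete`.
-/
import Claimed.Agent.R081.ReflB

set_option autoImplicit false

namespace Claimed.Agent.R081

open Claims.C0145 Claims.C0145.TriangularBilliards
open MeasureTheory Set Filter Topology

variable {Q : Triangle} {z : Phase}

theorem HalfChain.lc_pos (h : HalfChain Q z) (n : ℕ) :
    0 < lc Q (h.wall (n + 1) + 2) (h.dir (n + 1) : ℂ) := by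
  have h0 : bc Q (h.wall (n + 1) + 2) (h.point (n + 1)) = 0 :=
    ((mem_side_iff Q _).1 (h.on_side n)).1
  have hlt : h.time (n + 1) < h.time (n + 1 + 1) := h.mono (Nat.lt_succ_self _)
  have h1 := h.inside (n + 1) ((h.time (n + 1) + h.time (n + 1 + 1)) / 2) (by linarith) (by linarith)
  have h2 := (mem_table_iff Q).1 h1 (h.wall (n + 1) + 2)
  rw [bc_add_smul, h0, zero_add] at h2
  have h3 : 0 < (h.time (n + 1) + h.time (n + 1 + 1)) / 2 - h.time (n + 1) := by linarith
  exact (pos_iff_pos_of_mul_pos h2).1 h3

theorem HalfChain.walls_ne (h : HalfChain Q z) (n : ℕ) : h.wall (n + 1) ≠ h.wall (n + 2) := by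
  intro he
  have h0 : bc Q (h.wall (n + 1) + 2) (h.point (n + 1)) = 0 :=
    ((mem_side_iff Q _).1 (h.on_side n)).1
  have h1 : bc Q (h.wall (n + 1) + 2) (h.point (n + 1 + 1)) = 0 := by
    have := ((mem_side_iff Q _).1 (h.on_side (n + 1))).1
    rw [he]
    exact this
  have hlt : h.time (n + 1) < h.time (n + 1 + 1) := h.mono (Nat.lt_succ_self _)
  rw [h.flight (n + 1), bc_add_smul, h0, zero_add] at h1
  have h2 := h.lc_pos n
  have h3 : 0 < h.time (n + 1 + 1) - h.time (n + 1) := by linarith
  have h4 := mul_pos h3 h2
  linarith

theorem HalfChain.dist_point_le (h : HalfChain Q z) {n m : ℕ} (hnm : n ≤ m) :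
    dist (h.point n) (h.point m) ≤ h.time m - h.time n := by
  induction m, hnm using Nat.le_induction with
  | base => simp
  | succ m _ ih =>
    have hlt : h.time m < h.time (m + 1) := h.mono (Nat.lt_succ_self _)
    have h1 : dist (h.point m) (h.point (m + 1)) = h.time (m + 1) - h.time m := by
      rw [h.flight m, dist_eq_norm, sub_add_cancel_left, norm_neg, norm_smul, Circle.norm_coe,
        mul_one, Real.norm_eq_abs, abs_of_pos (by linarith)]
    have h2 := dist_triangle (h.point n) (h.point m) (h.point (m + 1))
    linarith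

theorem HalfChain.exists_limit (h : HalfChain Q z) (T : ℝ) (hT : ∀ n, h.time n ≤ T) :
    ∃ y : ℂ, Tendsto h.point atTop (𝓝 y) := by
  have hbdd : BddAbove (range h.time) := ⟨T, by rintro _ ⟨n, rfl⟩; exact hT n⟩
  have hlim : Tendsto h.time atTop (𝓝 (⨆ n, h.time n)) :=
    tendsto_atTop_ciSup h.mono.monotone hbdd
  have hle : ∀ n, h.time n ≤ ⨆ n, h.time n := fun n => le_ciSup hbdd n
  have hc : CauchySeq h.point := by
    refine cauchySeq_of_le_tendsto_0 (fun N => (⨆ n, h.time n) - h.time N) ?_ ?_
    · intro n m N hn hm
      have h1 := h.dist_point_le hn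
      have h2 := h.dist_point_le hm
      have h3 := dist_triangle_left (h.point n) (h.point m) (h.point N)
      rcases le_total n m with hnm | hnm
      · have h4 := h.dist_point_le hnm
        have h5 := h.mono.monotone hn
        have h6 := hle m
        show dist (h.point n) (h.point m) ≤ (⨆ n, h.time n) - h.time N
        linarith
      · have h4 := h.dist_point_le hnm
        rw [dist_comm] at h4
        have h5 := h.mono.monotone hm
        have h6 := hle n
        show dist (h.point n) (h.point m) ≤ (⨆ n, h.time n) - h.time N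
        linarith
    · have := hlim.const_sub (⨆ n, h.time n)
      simpa using this
  exact cauchySeq_tendsto_of_complete hc

end Claimed.Agent.R081
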