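/-
Row 81, file NoAccB: collisions of a half chain do not accumulate, part B: a limit of the collision points is a vertex, and
eventually only the two sides through this vertex are hit.
Put a n = wall (n+1) + 2 : Fin 3, so bc (a n) (point (n+1)) = 0 (`on_side`, `mem_side_iff`) and a n ≠ a (n+1) (`walls_ne`).
1. If `∃ᶠ n in atTop, a n = j` then bc j y = 0: bc j (point (n+1)) tends to bc j y (`continuous_bc`, `tendsto_add_atTop_iff_nat`)
   and is frequently in the closed set {0} (`IsClosed.mem_of_frequently_of_tendsto`).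
2. Some j is frequent (otherwise eventually a n ∉ {0,1,2}); some k ≠ j is frequent (otherwise eventually a n = j, in
   particular a N = a (N+1)).
3. So bc j y = bc k y = 0 and y = vertex l for the third index l (`eq_vertex_of_bc`, or `eq_vertex_of_bc_eq_zero`); bc l y = 1
   (`bc_vertex`), so eventually bc l (point (n+1)) > 0, hence a n ≠ l.
-/
import Claimed.Agent.R081.NoAccA

set_option autoImplicit false

namespace Claimed.Agent.R081

open Claims.C0145 Claims.C0145.TriangularBilliards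
open MeasureTheory Set Filter Topology

variable {Q : Triangle} {z : Phase}

theorem HalfChain.bc_limit_eq_zero (h : HalfChain Q z) {y : ℂ} (hy : Tendsto h.point atTop (𝓝 y))
    {j : Fin 3} (hj : ∃ᶠ n in atTop, h.wall (n + 1) + 2 = j) : bc Q j y = 0 := by
  have h1 : Tendsto (fun n => bc Q j (h.point (n + 1))) atTop (𝓝 (bc Q j y)) :=
    ((continuous_bc Q j).tendsto y).comp ((tendsto_add_atTop_iff_nat 1).2 hy)
  have h2 : ∃ᶠ n in atTop, bc Q j (h.point (n + 1)) ∈ ({0} : Set ℝ) :=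
    hj.mono fun n hn => by
      rw [← hn]
      exact ((mem_side_iff Q _).1 (h.on_side n)).1
  exact isClosed_singleton.mem_of_frequently_of_tendsto h2 h1

theorem HalfChain.two_frequent (h : HalfChain Q z) :
    ∃ j k : Fin 3, j ≠ k ∧ (∃ᶠ n in atTop, h.wall (n + 1) + 2 = j) ∧
      (∃ᶠ n in atTop, h.wall (n + 1) + 2 = k) := by
  have hne : ∀ n, h.wall (n + 1) + 2 ≠ h.wall (n + 1 + 1) + 2 := fun n hn =>
    h.walls_ne n (add_right_cancel hn)
  have hex : ∃ j : Fin 3, ∃ᶠ n in atTop, h.wall (n + 1) + 2 = j := by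
    by_contra hcon
    push Not at hcon
    have h1 : ∀ j : Fin 3, ∀ᶠ n in atTop, h.wall (n + 1) + 2 ≠ j := fun j => hcon j
    obtain ⟨n, hn⟩ := (Filter.eventually_all.2 h1).exists
    exact hn _ rfl
  obtain ⟨j, hj⟩ := hex
  have hex2 : ∃ k : Fin 3, j ≠ k ∧ ∃ᶠ n in atTop, h.wall (n + 1) + 2 = k := by
    by_contra hcon
    push Not at hcon
    have h1 : ∀ k : Fin 3, ∀ᶠ n in atTop, j ≠ k → h.wall (n + 1) + 2 ≠ k := by
      intro k
      by_cases hjk : j = k
      · exact Filter.Eventually.of_forall fun n hh => absurd hjk hh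
      · exact (hcon k hjk).mono fun n hn _ => hn
    obtain ⟨N, hN⟩ := Filter.eventually_atTop.1 (Filter.eventually_all.2 h1)
    have e1 : h.wall (N + 1) + 2 = j := by
      by_contra hh
      exact hN N le_rfl _ (Ne.symm hh) rfl
    have e2 : h.wall (N + 1 + 1) + 2 = j := by
      by_contra hh
      exact hN (N + 1) (Nat.le_succ N) _ (Ne.symm hh) rfl
    exact hne N (e1.trans e2.symm)
  obtain ⟨k, hjk, hk⟩ := hex2
  exact ⟨j, k, hjk, hj, hk⟩

theorem HalfChain.limit_vertex (h : HalfChain Q z) {y : ℂ} (hy : Tendsto h.point atTop (𝓝 y)) :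
    ∃ (l : Fin 3) (N : ℕ), y = Q.vertex l ∧ ∀ n, N ≤ n → h.wall (n + 1) + 2 ≠ l := by
  obtain ⟨j, k, hjk, hj, hk⟩ := h.two_frequent
  have bj := h.bc_limit_eq_zero hy hj
  have bk := h.bc_limit_eq_zero hy hk
  have key : ∀ j k : Fin 3, j ≠ k → ∃ l : Fin 3, (l + 1 = j ∧ l + 2 = k) ∨ (l + 1 = k ∧ l + 2 = j) := by
    decide
  have hl : ∃ l, y = Q.vertex l := by
    obtain ⟨l, ⟨a, b⟩ | ⟨a, b⟩⟩ := key j k hjk
    · exact ⟨l, eq_vertex_of_bc Q l (a ▸ bj) (b ▸ bk)⟩
    · exact ⟨l, eq_vertex_of_bc Q l (a ▸ bk) (b ▸ bj)⟩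
  obtain ⟨l, hl⟩ := hl
  have h1 : Tendsto (fun n => bc Q l (h.point (n + 1))) atTop (𝓝 (bc Q l y)) :=
    ((continuous_bc Q l).tendsto y).comp ((tendsto_add_atTop_iff_nat 1).2 hy)
  have h2 : bc Q l y = 1 := by rw [hl, bc_vertex, if_pos rfl]
  rw [h2] at h1
  have h3 : ∀ᶠ n in atTop, 0 < bc Q l (h.point (n + 1)) :=
    h1.eventually (lt_mem_nhds zero_lt_one)
  obtain ⟨N, hN⟩ := Filter.eventually_atTop.1 h3
  refine ⟨l, N, hl, fun n hn hw => ?_⟩
  have h4 := hN n hn
  have h5 := ((mem_side_iff Q _).1 (h.on_side n)).1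
  rw [hw] at h5
  linarith

end Claimed.Agent.R081
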