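/-
Row 81, file NoAccC: collisions of a half chain do not accumulate, part C: conclusion.
Let V = vertex l and c n = |crs (dir n) (point n - V)|.
* `HalfChain.sub_vertex`: i = wall (n+1), i + 2 ≠ l, so l = i or l = i + 1 (`Fin 3`), and bc (i+2) (point (n+1)) = 0:
  `exists_smul_tangent_of_bc_eq_zero`.
* `HalfChain.crs_invariant`: point (n+1) - V = r e with e = tangent i.  By `specular` and `crs_reflect`
  crs (dir (n+1)) (r e) = - crs (dir n) (r e), and r e = (point n - V) + d dir n (`flight`), so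
  crs (dir n) (r e) = crs (dir n) (point n - V) (`crs_add_right`, `crs_smul_right`, `crs_self`).
* `HalfChain.crs_ne_zero`: if it vanishes: r ≠ 0 since point (n+1) ≠ V (a point of the open side has bc i > 0 and bc (i+1) > 0,
  the vertex l has only bc l ≠ 0: `bc_vertex`), so crs (dir (n+1)) e = 0, dir (n+1) = a e (`exists_smul_of_crs_eq_zero`,
  `tangent_ne_zero`), lc (i+2) (dir (n+1)) = 0 (`lc_smul`, `lc_tangent`), against `HalfChain.lc_pos`.
* `HalfChain.unbounded`: otherwise the times are bounded by T; `exists_limit`, `limit_vertex` give y = V, N.  c is constant on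
  n ≥ N (`crs_invariant`), c n ≤ ‖point n - V‖ (`abs_crs_le`, norm of a circle point is 1) tends to 0, so c (N+1) = 0, against
  `crs_ne_zero`.
-/
import Claimed.Agent.R081.NoAccB

set_option autoImplicit false

namespace Claimed.Agent.R081

open Claims.C0145 Claims.C0145.TriangularBilliards
open MeasureTheory Set Filter Topology

variable {Q : Triangle} {z : Phase}

theorem HalfChain.sub_vertex (h : HalfChain Q z) (l : Fin 3) (n : ℕ) (hw : h.wall (n + 1) + 2 ≠ l) :
    ∃ r : ℝ, h.point (n + 1) - Q.vertex l = r • Q.tangent (h.wall (n + 1)) := by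
  have hb : bc Q (h.wall (n + 1) + 2) (h.point (n + 1)) = 0 :=
    ((mem_side_iff Q (h.wall (n + 1))).1 (h.on_side n)).1
  obtain ⟨h1, h2⟩ := exists_smul_tangent_of_bc_eq_zero Q (h.wall (n + 1)) hb
  rcases baryB_cases (h.wall (n + 1)) l with e | e | e
  · rw [e]; exact h1
  · rw [e]; exact h2
  · exact absurd e.symm hw

theorem HalfChain.crs_invariant (h : HalfChain Q z) (l : Fin 3) (n : ℕ)
    (hw : h.wall (n + 1) + 2 ≠ l) :
    |crs (h.dir (n + 1) : ℂ) (h.point (n + 1) - Q.vertex l)| =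
      |crs (h.dir n : ℂ) (h.point n - Q.vertex l)| := by
  obtain ⟨r, hr⟩ := h.sub_vertex l n hw
  have e1 : crs (h.dir (n + 1) : ℂ) (h.point (n + 1) - Q.vertex l)
      = - crs (h.dir n : ℂ) (h.point (n + 1) - Q.vertex l) := by
    rw [hr, h.specular n, crs_reflect (tangent_ne_zero Q _)]
  have e2 : h.point (n + 1) - Q.vertex l
      = (h.point n - Q.vertex l) + (h.time (n + 1) - h.time n) • (h.dir n : ℂ) := by
    rw [h.flight n]
    ring
  rw [e1, abs_neg, e2, crs_add_right, crs_smul_right, crs_self, mul_zero, add_zero]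

theorem HalfChain.crs_ne_zero (h : HalfChain Q z) (l : Fin 3) (n : ℕ)
    (hw : h.wall (n + 1) + 2 ≠ l) :
    crs (h.dir (n + 1) : ℂ) (h.point (n + 1) - Q.vertex l) ≠ 0 := by
  intro h0
  obtain ⟨r, hr⟩ := h.sub_vertex l n hw
  obtain ⟨-, hs1, hs2⟩ := (mem_side_iff Q (h.wall (n + 1))).1 (h.on_side n)
  obtain ⟨n1, n2, n3, n4, n5, n6⟩ := baryB_ne (h.wall (n + 1))
  have hr0 : r ≠ 0 := by
    intro hr0
    rw [hr0, zero_smul, sub_eq_zero] at hr
    rw [hr] at hs1 hs2
    rw [bc_vertex] at hs1 hs2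
    rcases baryB_cases (h.wall (n + 1)) l with e | e | e
    · rw [e, if_neg n1] at hs2
      exact lt_irrefl _ hs2
    · rw [e, if_neg n4] at hs1
      exact lt_irrefl _ hs1
    · exact hw e.symm
  rw [hr, crs_smul_right] at h0
  have h1 : crs (h.dir (n + 1) : ℂ) (Q.tangent (h.wall (n + 1))) = 0 :=
    (mul_eq_zero.1 h0).resolve_left hr0
  obtain ⟨a, ha⟩ := exists_smul_of_crs_eq_zero (tangent_ne_zero Q _) h1
  have h2 := h.lc_pos n
  rw [ha, lc_smul, lc_tangent, mul_zero] at h2
  exact lt_irrefl _ h2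

theorem HalfChain.unbounded (h : HalfChain Q z) (T : ℝ) : ∃ n, T < h.time n := by
  by_contra hcon
  push Not at hcon
  obtain ⟨y, hy⟩ := h.exists_limit T hcon
  obtain ⟨l, N, hyl, hN⟩ := h.limit_vertex hy
  have hconst : ∀ k, |crs (h.dir (N + 1 + k) : ℂ) (h.point (N + 1 + k) - Q.vertex l)|
      = |crs (h.dir (N + 1) : ℂ) (h.point (N + 1) - Q.vertex l)| := by
    intro k
    induction k with
    | zero => rfl
    | succ k ih =>
      rw [← ih]
      exact h.crs_invariant l (N + 1 + k) (hN _ (by omega))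
  have hlim : Tendsto (fun n => ‖h.point n - Q.vertex l‖) atTop (𝓝 0) := by
    rw [hyl] at hy
    exact tendsto_iff_norm_sub_tendsto_zero.1 hy
  have hle : |crs (h.dir (N + 1) : ℂ) (h.point (N + 1) - Q.vertex l)| ≤ 0 := by
    refine ge_of_tendsto hlim ?_
    filter_upwards [eventually_ge_atTop (N + 1)] with n hn
    obtain ⟨k, rfl⟩ := Nat.exists_eq_add_of_le hn
    rw [← hconst k]
    refine (abs_crs_le _ _).trans ?_
    rw [Circle.norm_coe, one_mul]
  exact h.crs_ne_zero l N (hN N le_rfl) (abs_eq_zero.1 (le_antisymm hle (abs_nonneg _)))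

end Claimed.Agent.R081
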