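/-
Row 81, file GlueA: the glued data satisfy the fields `increasing`, `unbounded_*`, `zero_*`, `on_side` of `FlightChain`.
Use `int_cases` and the evaluation lemmas of GlueDefs (rewrite -(n+1 : Z) + 1 = -n, (0 : Z) = -((0 : Nat) : Z),
(1 : Z) = ((0 : Nat) : Z) + 1, with `push_cast`/`ring_nf`/`omega` to put the index in the form of the lemmas).
* increasing: `strictMono_int_of_lt_succ`.  Index n+1: `h₁.mono`.  Index -(n+1): `h₂.mono`.  Index 0:
  - h₂.time 1 < 0 < h₁.time 1 since time 0 = 0 and `mono`.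
* unbounded: `HalfChain.unbounded` for h₁ (above) and for h₂ (below); the index found is ≥ 1 or can be increased by 1 (`mono`).
-/
import Claimed.Agent.R081.GlueDefs
import Claimed.Agent.R081.NoAccC

set_option autoImplicit false

namespace Claimed.Agent.R081

open Claims.C0145 Claims.C0145.TriangularBilliards
open MeasureTheory Set

variable {Q : Triangle} {z : Phase} (h₁ : HalfChain Q z) (h₂ : HalfChain Q (ng z))

theorem HalfChain.time_pos {y : Phase} (h : HalfChain Q y) (n : ℕ) : 0 < h.time (n + 1) := by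
  have := h.mono (Nat.succ_pos n)
  rwa [h.time_zero] at this

theorem glue_increasing : StrictMono (gtime h₁ h₂) := by
  apply strictMono_int_of_lt_succ
  intro m
  induction m using int_cases with
  | hp n =>
    have e : ((n : ℤ) + 1 + 1) = (((n + 1 : ℕ) : ℤ) + 1) := by push_cast; ring
    rw [e, gtime_pos, gtime_pos]
    exact h₁.mono (Nat.lt_succ_self _)
  | hn n =>
    cases n with
    | zero =>
      have e : (-((0 : ℕ) : ℤ) + 1) = (((0 : ℕ) : ℤ) + 1) := by simp
      rw [e, gtime_pos, gtime_neg]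
      have a := h₁.time_pos 0
      have b := h₂.time_pos 0
      linarith
    | succ k =>
      have e : (-((k + 1 : ℕ) : ℤ) + 1) = -((k : ℕ) : ℤ) := by push_cast; ring
      rw [e, gtime_neg, gtime_neg]
      have := h₂.mono (Nat.lt_succ_self (k + 1))
      linarith

theorem glue_unbounded_below (t : ℝ) : ∃ n : ℤ, gtime h₁ h₂ n < t := by
  obtain ⟨n, hn⟩ := h₂.unbounded (-t)
  refine ⟨-(n : ℤ), ?_⟩
  rw [gtime_neg]
  have := h₂.mono (Nat.lt_succ_self n)
  linarith

theorem glue_unbounded_above (t : ℝ) : ∃ n : ℤ, t < gtime h₁ h₂ n := by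
  obtain ⟨n, hn⟩ := h₁.unbounded t
  refine ⟨(n : ℤ) + 1, ?_⟩
  rw [gtime_pos]
  have := h₁.mono (Nat.lt_succ_self n)
  linarith

theorem glue_zero_before : gtime h₁ h₂ 0 < 0 := by
  have e : (0 : ℤ) = -((0 : ℕ) : ℤ) := by simp
  rw [e, gtime_neg]
  have := h₂.time_pos 0
  linarith

theorem glue_zero_after : 0 < gtime h₁ h₂ 1 := by
  have e : (1 : ℤ) = ((0 : ℕ) : ℤ) + 1 := by simp
  rw [e, gtime_pos]
  exact h₁.time_pos 0

theorem glue_on_side (n : ℤ) : gpoint h₁ h₂ n ∈ Q.side (gwall h₁ h₂ n) := by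
  induction n using int_cases with
  | hp n =>
    rw [gpoint_pos, gwall_pos]
    exact h₁.on_side n
  | hn n =>
    rw [gpoint_neg, gwall_neg]
    exact h₂.on_side n

end Claimed.Agent.R081
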