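/-
Row 81, file GlueB: the glued data satisfy the fields `flight`, `inside`, `start_point` of `FlightChain`.
Use `int_cases` and the evaluation lemmas of GlueDefs.  Three cases for the index n of a flight:
* n = m + 1 (m : Nat): exactly `h₁.flight (m+1)`, `h₁.inside (m+1)` (`gdir_nat` at m + 1, with a cast).
* n = 0: gpoint 0 = h₂.point 1 = z.1 - h₂.time 1 • z.2 (`h₂.flight 0`, `point_zero`, `dir_zero`, `time_zero`, `ng`),
  gpoint 1 = h₁.point 1 = z.1 + h₁.time 1 • z.2, gdir 0 = z.2.  So gpoint 0 + (t - gtime 0) • gdir 0 = z.1 + t • z.2.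
  It is in the table for 0 < t < h₁.time 1 (`h₁.inside 0`), for t = 0 (`start_mem`) and for - h₂.time 1 < t < 0
  (`h₂.inside 0` at time -t, direction - z.2).
* n = -(m+1): n + 1 = -m.  gpoint n = h₂.point (m+2), gpoint (n+1) = h₂.point (m+1), gdir n = - h₂.dir (m+1),
  gtime n = - h₂.time (m+2), gtime (n+1) = - h₂.time (m+1); use `h₂.flight (m+1)` and `h₂.inside (m+1)` at time -t:
  h₂.point (m+2) - (t + h₂.time (m+2)) • d = h₂.point (m+1) + (-t - h₂.time (m+1)) • d, d = h₂.dir (m+1).
Coercion of a negative: `Circle.coe_neg` (or `simp`).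
-/
import Claimed.Agent.R081.GlueDefs

set_option autoImplicit false

namespace Claimed.Agent.R081

open Claims.C0145 Claims.C0145.TriangularBilliards
open MeasureTheory Set

variable {Q : Triangle} {z : Phase} (h₁ : HalfChain Q z) (h₂ : HalfChain Q (ng z))

theorem glueB_time_zero : gtime h₁ h₂ 0 = - h₂.time 1 := by
  have h := gtime_neg h₁ h₂ 0
  simpa only [Nat.cast_zero, neg_zero, zero_add] using h

theorem glueB_dir_zero : gdir h₁ h₂ 0 = z.2 := by
  have h := gdir_nat h₁ h₂ 0
  rw [h₁.dir_zero] at h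
  simpa only [Nat.cast_zero] using h

theorem glueB_point_zero : gpoint h₁ h₂ 0 = z.1 - h₂.time 1 • (z.2 : ℂ) := by
  have h := gpoint_neg h₁ h₂ 0
  simp only [Nat.cast_zero, neg_zero, zero_add] at h
  rw [h, h₂.flight 0, h₂.point_zero, h₂.dir_zero, h₂.time_zero]
  simp only [ng, Circle.coe_neg, Complex.real_smul]
  push_cast
  ring

theorem glueB_point_one : gpoint h₁ h₂ 1 = z.1 + h₁.time 1 • (z.2 : ℂ) := by
  have h := gpoint_pos h₁ h₂ 0
  simp only [Nat.cast_zero, zero_add] at h
  rw [h, h₁.flight 0, h₁.point_zero, h₁.dir_zero, h₁.time_zero]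
  simp only [Complex.real_smul]
  push_cast
  ring

theorem glueB_time_one : gtime h₁ h₂ 1 = h₁.time 1 := by
  have h := gtime_pos h₁ h₂ 0
  simpa only [Nat.cast_zero, zero_add] using h

theorem glueB_point_pos2 (m : ℕ) : gpoint h₁ h₂ ((m : ℤ) + 1 + 1) = h₁.point (m + 1 + 1) := by
  have h := gpoint_pos h₁ h₂ (m + 1)
  push_cast at h
  exact h

theorem glueB_time_pos2 (m : ℕ) : gtime h₁ h₂ ((m : ℤ) + 1 + 1) = h₁.time (m + 1 + 1) := by
  have h := gtime_pos h₁ h₂ (m + 1)
  push_cast at h
  exact h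

theorem glueB_dir_pos (m : ℕ) : gdir h₁ h₂ ((m : ℤ) + 1) = h₁.dir (m + 1) := by
  have h := gdir_nat h₁ h₂ (m + 1)
  push_cast at h
  exact h

theorem glueB_neg_succ (k : ℕ) : -(((k + 1 : ℕ)) : ℤ) + 1 = -(k : ℤ) := by
  push_cast
  ring

theorem glue_start_point :
    z.1 = gpoint h₁ h₂ 0 + (- gtime h₁ h₂ 0) • (gdir h₁ h₂ 0 : ℂ) := by
  rw [glueB_point_zero, glueB_time_zero, glueB_dir_zero]
  simp only [Complex.real_smul]
  push_cast
  ring

theorem glue_flight (n : ℤ) :
    gpoint h₁ h₂ (n + 1) =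
      gpoint h₁ h₂ n + (gtime h₁ h₂ (n + 1) - gtime h₁ h₂ n) • (gdir h₁ h₂ n : ℂ) := by
  refine int_cases (P := fun n => gpoint h₁ h₂ (n + 1) =
      gpoint h₁ h₂ n + (gtime h₁ h₂ (n + 1) - gtime h₁ h₂ n) • (gdir h₁ h₂ n : ℂ)) ?_ ?_ n
  · intro m
    rw [glueB_point_pos2, glueB_time_pos2, glueB_dir_pos, gpoint_pos, gtime_pos]
    exact h₁.flight (m + 1)
  · intro m
    cases m with
    | zero =>
      simp only [Nat.cast_zero, neg_zero, zero_add]
      rw [glueB_point_one, glueB_point_zero, glueB_time_one, glueB_time_zero, glueB_dir_zero]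
      simp only [Complex.real_smul]
      push_cast
      ring
    | succ k =>
      rw [glueB_neg_succ, gpoint_neg, gpoint_neg, gtime_neg, gtime_neg, gdir_neg,
        h₂.flight (k + 1)]
      simp only [Circle.coe_neg, Complex.real_smul]
      push_cast
      ring

theorem glue_inside (n : ℤ) (t : ℝ) (h1 : gtime h₁ h₂ n < t) (h2 : t < gtime h₁ h₂ (n + 1)) :
    gpoint h₁ h₂ n + (t - gtime h₁ h₂ n) • (gdir h₁ h₂ n : ℂ) ∈ Q.table := by
  revert h1 h2
  refine int_cases (P := fun n => gtime h₁ h₂ n < t → t < gtime h₁ h₂ (n + 1) →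
      gpoint h₁ h₂ n + (t - gtime h₁ h₂ n) • (gdir h₁ h₂ n : ℂ) ∈ Q.table) ?_ ?_ n
  · intro m
    rw [glueB_time_pos2, glueB_dir_pos, gpoint_pos, gtime_pos]
    exact h₁.inside (m + 1) t
  · intro m
    cases m with
    | zero =>
      simp only [Nat.cast_zero, neg_zero, zero_add]
      rw [glueB_point_zero, glueB_time_one, glueB_time_zero, glueB_dir_zero]
      intro h1 h2
      have e : z.1 - h₂.time 1 • (z.2 : ℂ) + (t - -h₂.time 1) • (z.2 : ℂ) = z.1 + t • (z.2 : ℂ) := by
        simp only [Complex.real_smul]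
        push_cast
        ring
      rw [e]
      rcases lt_trichotomy t 0 with ht | ht | ht
      · have h := h₂.inside 0 (-t) (by rw [h₂.time_zero]; linarith) (by linarith)
        rw [h₂.point_zero, h₂.dir_zero, h₂.time_zero] at h
        have e2 : (ng z).1 + (-t - 0) • (((ng z).2 : Circle) : ℂ) = z.1 + t • (z.2 : ℂ) := by
          simp only [ng, Circle.coe_neg, Complex.real_smul]
          push_cast
          ring
        rw [e2] at h
        exact h
      · rw [ht, zero_smul, add_zero]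
        exact h₁.start_mem
      · have h := h₁.inside 0 t (by rw [h₁.time_zero]; exact ht) h2
        rw [h₁.point_zero, h₁.dir_zero, h₁.time_zero, sub_zero] at h
        exact h
    | succ k =>
      rw [glueB_neg_succ, gpoint_neg, gtime_neg, gtime_neg, gdir_neg]
      intro h1 h2
      have h := h₂.inside (k + 1) (-t) (by linarith) (by linarith)
      have e : h₂.point (k + 1 + 1) + (t - -h₂.time (k + 1 + 1)) • ((-h₂.dir (k + 1) : Circle) : ℂ)
          = h₂.point (k + 1) + (-t - h₂.time (k + 1)) • (h₂.dir (k + 1) : ℂ) := by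
        rw [h₂.flight (k + 1)]
        simp only [Circle.coe_neg, Complex.real_smul]
        push_cast
        ring
      rw [e]
      exact h

end Claimed.Agent.R081
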