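/-
Row 81, file GlueC: the glued data satisfy the fields `start_direction`, `specular` of `FlightChain`.
Use `int_cases` and the evaluation lemmas of GlueDefs.
* n = m + 1: n - 1 = m; this is `h₁.specular m` (`gdir_nat`, `gwall_pos`).
* n = -m: n - 1 = -(m+1); gdir n = - h₂.dir m, gdir (n-1) = - h₂.dir (m+1), gwall n = h₂.wall (m+1).
  `h₂.specular m`: h₂.dir (m+1) = reflect e (h₂.dir m), e = tangent (h₂.wall (m+1)); apply `reflect e` and use `reflect_reflect`
  (`tangent_ne_zero`), `reflect_neg`.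
-/
import Claimed.Agent.R081.GlueDefs
import Claimed.Agent.R081.ReflB

set_option autoImplicit false

namespace Claimed.Agent.R081

open Claims.C0145 Claims.C0145.TriangularBilliards
open MeasureTheory Set

variable {Q : Triangle} {z : Phase} (h₁ : HalfChain Q z) (h₂ : HalfChain Q (ng z))

theorem glue_start_direction : z.2 = gdir h₁ h₂ 0 := by
  have h := gdir_nat h₁ h₂ 0
  rw [Nat.cast_zero] at h
  rw [h, h₁.dir_zero]

theorem glue_specular (n : ℤ) :
    (gdir h₁ h₂ n : ℂ) = reflect (Q.tangent (gwall h₁ h₂ n)) (gdir h₁ h₂ (n - 1) : ℂ) := by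
  refine int_cases (P := fun n : ℤ =>
    (gdir h₁ h₂ n : ℂ) = reflect (Q.tangent (gwall h₁ h₂ n)) (gdir h₁ h₂ (n - 1) : ℂ)) ?_ ?_ n
  · intro m
    have e1 : ((m : ℤ) + 1) = ((m + 1 : ℕ) : ℤ) := by push_cast; ring
    have e2 : ((m : ℤ) + 1 - 1) = (m : ℤ) := by ring
    show (gdir h₁ h₂ ((m : ℤ) + 1) : ℂ)
      = reflect (Q.tangent (gwall h₁ h₂ ((m : ℤ) + 1))) (gdir h₁ h₂ ((m : ℤ) + 1 - 1) : ℂ)
    rw [e2, gwall_pos, gdir_nat, e1, gdir_nat]
    exact h₁.specular m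
  · intro m
    have e2 : (-(m : ℤ) - 1) = -((m + 1 : ℕ) : ℤ) := by push_cast; ring
    show (gdir h₁ h₂ (-(m : ℤ)) : ℂ)
      = reflect (Q.tangent (gwall h₁ h₂ (-(m : ℤ)))) (gdir h₁ h₂ (-(m : ℤ) - 1) : ℂ)
    rw [e2, gwall_neg, gdir_neg, gdir_neg, Circle.coe_neg, Circle.coe_neg, reflect_neg,
      h₂.specular m, reflect_reflect (tangent_ne_zero Q _)]

end Claimed.Agent.R081
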