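/-
Row 81, file Glue: assembly of the glued flight chain.  No sorry in this file.
-/
import Claimed.Agent.R081.GlueA
import Claimed.Agent.R081.GlueB
import Claimed.Agent.R081.GlueC

set_option autoImplicit false

namespace Claimed.Agent.R081

open Claims.C0145 Claims.C0145.TriangularBilliards
open MeasureTheory Set

variable {Q : Triangle} {z : Phase}

noncomputable def glue (h₁ : HalfChain Q z) (h₂ : HalfChain Q (ng z)) : FlightChain Q z where
  time := gtime h₁ h₂
  point := gpoint h₁ h₂
  direction := gdir h₁ h₂
  wall := gwall h₁ h₂
  increasing := glue_increasing h₁ h₂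
  unbounded_below := glue_unbounded_below h₁ h₂
  unbounded_above := glue_unbounded_above h₁ h₂
  zero_before := glue_zero_before h₁ h₂
  zero_after := glue_zero_after h₁ h₂
  on_side := glue_on_side h₁ h₂
  flight := glue_flight h₁ h₂
  inside := glue_inside h₁ h₂
  start_point := glue_start_point h₁ h₂
  start_direction := glue_start_direction h₁ h₂
  specular := glue_specular h₁ h₂

end Claimed.Agent.R081
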