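/-
Row 81, file CanonB: every flight chain of z consists of the canonical data `ctime, cpoint, cdir, cwall`; uniqueness (clause 3);
existence iff `Good`.
* `chain_canon_*`: for 1 ≤ n put m = n.toNat (m ≠ 0, (m : Z) = n): c.time n = (chainFwd c).time m = ft m z by `half_canon`.
  For n ≤ 0 put m = (1 - n).toNat: (chainFwd (chainRev c)).time m = (chainRev c).time (1 - n) = - c.time (1 - (1 - n)) = - c.time n,
  and `half_canon` for the half chain `chainFwd (chainRev c)` of `ng z`.  Same for point and wall (m = k + 1 for the wall).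
  Direction: for 0 ≤ n: c.direction n = (chainFwd c).dir n.toNat.  For n < 0: (chainFwd (chainRev c)).dir (-n).toNat =
  (chainRev c).direction (-n) = - c.direction n  (`neg_neg`).
  The projections of `chainFwd`, `chainRev` unfold by `rfl`/`simp [chainFwd, chainRev]`.
* `chain_unique`: `chain_ext` + `funext`.
* `nonempty_chain_iff`: (→) `goodF_of_half (chainFwd c)`, `goodF_of_half (chainFwd (chainRev c))`; (←) `chainOfGood`.
-/
import Claimed.Agent.R081.CanonA
import Claimed.Agent.R081.ChainFwd
import Claimed.Agent.R081.ChainRev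
import Claimed.Agent.R081.Glue

set_option autoImplicit false

namespace Claimed.Agent.R081

open Claims.C0145 Claims.C0145.TriangularBilliards
open MeasureTheory Set

variable {Q : Triangle} {z : Phase}

theorem canonB_fwd_time {z : Phase} (c : FlightChain Q z) {m : ℕ} (hm : m ≠ 0) :
    (chainFwd c).time m = c.time (m : ℤ) := by
  show (if m = 0 then 0 else c.time (m : ℤ)) = _
  rw [if_neg hm]

theorem canonB_fwd_point {z : Phase} (c : FlightChain Q z) {m : ℕ} (hm : m ≠ 0) :
    (chainFwd c).point m = c.point (m : ℤ) := by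
  show (if m = 0 then z.1 else c.point (m : ℤ)) = _
  rw [if_neg hm]

theorem chain_canon_time (c : FlightChain Q z) (n : ℤ) : c.time n = ctime Q n z := by
  unfold ctime
  by_cases h : 1 ≤ n
  · rw [if_pos h]
    have hm : ((n.toNat : ℕ) : ℤ) = n := Int.toNat_of_nonneg (by omega)
    have hm0 : n.toNat ≠ 0 := by omega
    rw [← (half_canon (chainFwd c) n.toNat).1, canonB_fwd_time c hm0, hm]
  · rw [if_neg h]
    have hm : (((1 - n).toNat : ℕ) : ℤ) = 1 - n := Int.toNat_of_nonneg (by omega)
    have hm0 : (1 - n).toNat ≠ 0 := by omega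
    rw [← (half_canon (chainFwd (chainRev c)) (1 - n).toNat).1,
      canonB_fwd_time (chainRev c) hm0, hm]
    show c.time n = - - c.time (1 - (1 - n))
    rw [show (1 : ℤ) - (1 - n) = n by ring, neg_neg]

theorem chain_canon_point (c : FlightChain Q z) (n : ℤ) : c.point n = cpoint Q n z := by
  unfold cpoint
  by_cases h : 1 ≤ n
  · rw [if_pos h]
    have hm : ((n.toNat : ℕ) : ℤ) = n := Int.toNat_of_nonneg (by omega)
    have hm0 : n.toNat ≠ 0 := by omega
    rw [← (half_canon (chainFwd c) n.toNat).2.1, canonB_fwd_point c hm0, hm]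
  · rw [if_neg h]
    have hm : (((1 - n).toNat : ℕ) : ℤ) = 1 - n := Int.toNat_of_nonneg (by omega)
    have hm0 : (1 - n).toNat ≠ 0 := by omega
    rw [← (half_canon (chainFwd (chainRev c)) (1 - n).toNat).2.1,
      canonB_fwd_point (chainRev c) hm0, hm]
    show c.point n = c.point (1 - (1 - n))
    rw [show (1 : ℤ) - (1 - n) = n by ring]

theorem chain_canon_dir (c : FlightChain Q z) (n : ℤ) : c.direction n = cdir Q n z := by
  unfold cdir
  by_cases h : 0 ≤ n
  · rw [if_pos h]
    have hm : ((n.toNat : ℕ) : ℤ) = n := Int.toNat_of_nonneg h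
    rw [← (half_canon (chainFwd c) n.toNat).2.2.1]
    show c.direction n = c.direction ((n.toNat : ℕ) : ℤ)
    rw [hm]
  · rw [if_neg h]
    have hm : (((-n).toNat : ℕ) : ℤ) = -n := Int.toNat_of_nonneg (by omega)
    rw [← (half_canon (chainFwd (chainRev c)) (-n).toNat).2.2.1]
    show c.direction n = - - c.direction (-(((-n).toNat : ℕ) : ℤ))
    rw [hm, neg_neg, neg_neg]

theorem chain_canon_wall (c : FlightChain Q z) (n : ℤ) : c.wall n = cwall Q n z := by
  unfold cwall
  by_cases h : 1 ≤ n
  · rw [if_pos h]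
    have hm : ((n.toNat : ℕ) : ℤ) = n := Int.toNat_of_nonneg (by omega)
    obtain ⟨k, hk⟩ : ∃ k, n.toNat = k + 1 := ⟨n.toNat - 1, by omega⟩
    rw [hk, ← (half_canon (chainFwd c) k).2.2.2.2, ← hk]
    show c.wall n = c.wall ((n.toNat : ℕ) : ℤ)
    rw [hm]
  · rw [if_neg h]
    have hm : (((1 - n).toNat : ℕ) : ℤ) = 1 - n := Int.toNat_of_nonneg (by omega)
    obtain ⟨k, hk⟩ : ∃ k, (1 - n).toNat = k + 1 := ⟨(1 - n).toNat - 1, by omega⟩
    rw [hk, ← (half_canon (chainFwd (chainRev c)) k).2.2.2.2, ← hk]
    show c.wall n = c.wall (1 - (((1 - n).toNat : ℕ) : ℤ))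
    rw [hm, show (1 : ℤ) - (1 - n) = n by ring]

/-- clause 3 -/
theorem chain_unique (c d : FlightChain Q z) : c = d := by
  refine chain_ext c d ?_ ?_ ?_ ?_
  · funext n
    rw [chain_canon_time, chain_canon_time]
  · funext n
    rw [chain_canon_point, chain_canon_point]
  · funext n
    rw [chain_canon_dir, chain_canon_dir]
  · funext n
    rw [chain_canon_wall, chain_canon_wall]

noncomputable def chainOfGood (h : Good Q z) : FlightChain Q z :=
  glue (halfOfGoodF h.1) (halfOfGoodF h.2)

theorem nonempty_chain_iff : Nonempty (FlightChain Q z) ↔ Good Q z := by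
  constructor
  · rintro ⟨c⟩
    exact ⟨goodF_of_half (chainFwd c), goodF_of_half (chainFwd (chainRev c))⟩
  · intro h
    exact ⟨chainOfGood h⟩

end Claimed.Agent.R081
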