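/-
Row 81, file ChainRev: time reversal of a flight chain: a chain of `ng z = (z.1, -z.2)`.
  time' n = - time (1 - n),  point' n = point (1 - n),  direction' n = - direction (-n),  wall' n = wall (1 - n).
* flight at n: use `c.flight (-n)` (rewrite 1 - (n + 1) = -n and -n + 1 = 1 - n).
* inside at n, t: use `c.inside (-n) (-t)` and `c.flight (-n)`:
    point (1-n) - (t + time (1-n)) dir (-n) = point (-n) + (-t - time (-n)) dir (-n).
* start_point: point 1 - time 1 dir 0 = point 0 - time 0 dir 0 by `c.flight 0`.
* specular at n: apply `reflect (tangent (wall (1-n)))` to `c.specular (1 - n)` and use `reflect_reflect`, `reflect_neg`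
  (`tangent_ne_zero`); coercion of the negative of a point of the circle: `Circle.coe_neg` (or `rfl`/`simp`).
-/
import Claimed.Agent.R081.ChainA
import Claimed.Agent.R081.ReflB

set_option autoImplicit false

namespace Claimed.Agent.R081

open Claims.C0145 Claims.C0145.TriangularBilliards
open MeasureTheory Set

variable {Q : Triangle} {z : Phase}

noncomputable def chainRev (c : FlightChain Q z) : FlightChain Q (ng z) where
  time n := - c.time (1 - n)
  point n := c.point (1 - n)
  direction n := - c.direction (-n)
  wall n := c.wall (1 - n)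
  increasing := by
    intro a b hab
    have h : c.time (1 - b) < c.time (1 - a) := c.increasing (by omega)
    show - c.time (1 - a) < - c.time (1 - b)
    linarith
  unbounded_below := by
    intro t
    obtain ⟨n, hn⟩ := c.unbounded_above (-t)
    refine ⟨1 - n, ?_⟩
    show - c.time (1 - (1 - n)) < t
    rw [show (1 : ℤ) - (1 - n) = n by ring]
    linarith
  unbounded_above := by
    intro t
    obtain ⟨n, hn⟩ := c.unbounded_below (-t)
    refine ⟨1 - n, ?_⟩
    show t < - c.time (1 - (1 - n))
    rw [show (1 : ℤ) - (1 - n) = n by ring]
    linarith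
  zero_before := by
    show - c.time (1 - 0) < 0
    rw [show (1 : ℤ) - 0 = 1 by ring]
    linarith [c.zero_after]
  zero_after := by
    show 0 < - c.time (1 - 1)
    rw [show (1 : ℤ) - 1 = 0 by ring]
    linarith [c.zero_before]
  on_side := by
    intro n
    exact c.on_side (1 - n)
  flight := by
    intro n
    show c.point (1 - (n + 1)) = c.point (1 - n)
      + (- c.time (1 - (n + 1)) - - c.time (1 - n)) • ((- c.direction (-n) : Circle) : ℂ)
    have h := c.flight (-n)
    rw [show (1 : ℤ) - (n + 1) = -n by ring]
    rw [show -n + 1 = 1 - n by ring] at h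
    rw [h, Circle.coe_neg, smul_neg, ← neg_smul, add_assoc, ← add_smul]
    rw [show c.time (1 - n) - c.time (-n) + -(-c.time (-n) - -c.time (1 - n)) = 0 by ring,
      zero_smul, add_zero]
  inside := by
    intro n t h1 h2
    show c.point (1 - n) + (t - - c.time (1 - n)) • ((- c.direction (-n) : Circle) : ℂ) ∈ Q.table
    change - c.time (1 - n) < t at h1
    change t < - c.time (1 - (n + 1)) at h2
    rw [show (1 : ℤ) - (n + 1) = -n by ring] at h2
    have h := c.flight (-n)
    have hi := c.inside (-n) (-t) (by linarith)
      (by rw [show -n + 1 = 1 - n by ring]; linarith)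
    rw [show -n + 1 = 1 - n by ring] at h
    rw [h, Circle.coe_neg, smul_neg, ← neg_smul, add_assoc, ← add_smul]
    rw [show c.time (1 - n) - c.time (-n) + -(t - -c.time (1 - n)) = -t - c.time (-n) by ring]
    exact hi
  start_point := by
    show z.1 = c.point (1 - 0) + (- - c.time (1 - 0)) • ((- c.direction (-0) : Circle) : ℂ)
    have h := c.flight 0
    rw [show (0 : ℤ) + 1 = 1 by ring] at h
    rw [show (1 : ℤ) - 0 = 1 by ring, show (-0 : ℤ) = 0 by ring]
    rw [h, Circle.coe_neg, smul_neg, ← neg_smul, add_assoc, ← add_smul]
    rw [show c.time 1 - c.time 0 + - - -c.time 1 = - c.time 0 by ring]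
    exact c.start_point
  start_direction := by
    show - z.2 = - c.direction (-0)
    rw [show (-0 : ℤ) = 0 by ring, c.start_direction]
  specular := by
    intro n
    show ((- c.direction (-n) : Circle) : ℂ)
      = reflect (Q.tangent (c.wall (1 - n))) ((- c.direction (-(n - 1)) : Circle) : ℂ)
    have h := c.specular (1 - n)
    rw [show (1 : ℤ) - n - 1 = -n by ring] at h
    rw [show -(n - 1) = 1 - n by ring, Circle.coe_neg, Circle.coe_neg, reflect_neg, h,
      reflect_reflect (tangent_ne_zero Q _)]

end Claimed.Agent.R081
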