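/-
Row 81, file ChainShift: a flight chain of z, re-based at a time t strictly between two collisions, is a flight chain of `c.at t`.
All fields follow from the fields of c at the index m + n (rewrite `m + 1 + n = (m + n) + 1`, `m - 1 + n = (m + n) - 1`,
`0 + n = n`, `1 + n = n + 1`) and from `chain_at_eq` for the two `start` fields.
`chainShift_at`: take the index m of s + t in c (`chain_exists_index`), then m - n is an index of s in the shifted chain;
use `chain_at_eq` on both sides.
-/
import Claimed.Agent.R081.ChainA

set_option autoImplicit false

namespace Claimed.Agent.R081

open Claims.C0145 Claims.C0145.TriangularBilliards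
open MeasureTheory Set

variable {Q : Triangle} {z : Phase}

noncomputable def chainShift (c : FlightChain Q z) (n : ℤ) (t : ℝ) (h1 : c.time n < t) (h2 : t < c.time (n + 1)) :
    FlightChain Q (c.at t) where
  time m := c.time (m + n) - t
  point m := c.point (m + n)
  direction m := c.direction (m + n)
  wall m := c.wall (m + n)
  increasing := by
    intro a b hab
    have := c.increasing (show a + n < b + n by omega)
    simp only
    linarith
  unbounded_below := by
    intro s
    obtain ⟨m, hm⟩ := c.unbounded_below (s + t)
    refine ⟨m - n, ?_⟩
    rw [sub_add_cancel]
    linarith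
  unbounded_above := by
    intro s
    obtain ⟨m, hm⟩ := c.unbounded_above (s + t)
    refine ⟨m - n, ?_⟩
    rw [sub_add_cancel]
    linarith
  zero_before := by
    rw [zero_add]
    linarith
  zero_after := by
    rw [add_comm 1 n]
    linarith
  on_side := by
    exact fun m => c.on_side (m + n)
  flight := by
    intro m
    have := c.flight (m + n)
    rw [show m + 1 + n = m + n + 1 by ring, this,
      show c.time (m + n + 1) - t - (c.time (m + n) - t) = c.time (m + n + 1) - c.time (m + n) by ring]
  inside := by
    intro m s hs1 hs2
    have := c.inside (m + n) (s + t) (by linarith)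
      (by rw [show m + n + 1 = m + 1 + n by ring]; linarith)
    rw [show s - (c.time (m + n) - t) = s + t - c.time (m + n) by ring]
    exact this
  start_point := by
    rw [chain_at_eq c h1.le h2]
    simp only [zero_add]
    rw [show -(c.time n - t) = t - c.time n by ring]
  start_direction := by
    rw [chain_at_eq c h1.le h2]
    simp only [zero_add]
  specular := by
    intro m
    have := c.specular (m + n)
    rw [show m - 1 + n = m + n - 1 by ring]
    exact this

theorem chainShift_at (c : FlightChain Q z) (n : ℤ) (t : ℝ) (h1 : c.time n < t)
    (h2 : t < c.time (n + 1)) (s : ℝ) : (chainShift c n t h1 h2).at s = c.at (s + t) := by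
  obtain ⟨m, hm1, hm2⟩ := chain_exists_index c (s + t)
  rw [chain_at_eq c hm1 hm2]
  have e1 : (chainShift c n t h1 h2).time (m - n) = c.time m - t := by
    show c.time (m - n + n) - t = _
    rw [sub_add_cancel]
  have e2 : (chainShift c n t h1 h2).time (m - n + 1) = c.time (m + 1) - t := by
    show c.time (m - n + 1 + n) - t = _
    rw [show m - n + 1 + n = m + 1 by ring]
  rw [chain_at_eq (chainShift c n t h1 h2) (n := m - n) (by rw [e1]; linarith)
    (by rw [e2]; linarith), e1]
  show (c.point (m - n + n) + _ • (c.direction (m - n + n) : ℂ), c.direction (m - n + n)) = _
  rw [sub_add_cancel, show s - (c.time m - t) = s + t - c.time m by ring]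

end Claimed.Agent.R081
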