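/-
Row 81, file FlowA: formulas for `billiardFlow`.
* `flow_eq_at`: unfold `billiardFlow`, `dif_pos ⟨c⟩`, `chain_unique`.
* `flow_of_not_good`: `dif_neg` with `nonempty_chain_iff`.
* `flow_eq_cflow`: c = `chainOfGood hz`, `flow_eq_at`, `chain_at_eq`, `chain_canon_*`.
* `ctime_strictMono`, `ctime_zero_neg`, `exists_ctime_index`: transport `increasing`, `zero_before`, `chain_exists_index` of
  `chainOfGood hz` with `chain_canon_time`.
* `ctime_succ`: unfold `ctime` (`if_pos`, `Int.toNat`).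
* `cflow_nat`: for n = m + 1 unfold (`cpoint`, `ctime`, `cdir`; the conditions 1 ≤ n, 0 ≤ n hold).  For n = 0 pure algebra:
  cpoint 0 z = (step (ng z)).1 = z.1 + tau • (-z.2), ctime 0 z = -(0 + tau), cdir 0 z = z.2, tau = exitT (ng z); so
  cpoint 0 z + (t - ctime 0 z) • z.2 = z.1 + (t - 0) • z.2.
* `flow_eq_fwd`: index (n : Z).  For n = 0: ctime 0 z < 0 ≤ t; for n = m + 1: `ctime_succ`.  Then `flow_eq_cflow`, `cflow_nat`.
* `exists_ft_index`: from `exists_ctime_index`; the index is ≥ 0 because t ≥ 0 > ... (`ctime_strictMono`, `ctime_zero_neg`: if the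
  index n were < 0 then t < ctime (n+1) ≤ ctime 0 < 0).
-/
import Claimed.Agent.R081.CanonB

set_option autoImplicit false

namespace Claimed.Agent.R081

open Claims.C0145 Claims.C0145.TriangularBilliards
open MeasureTheory Set

variable {Q : Triangle} {z : Phase}

theorem flow_eq_at (c : FlightChain Q z) (t : ℝ) : billiardFlow Q t z = c.at t := by
  have h : Nonempty (FlightChain Q z) := ⟨c⟩
  unfold billiardFlow
  rw [dif_pos h, chain_unique (Classical.choice h) c]

theorem flow_of_not_good (h : ¬ Good Q z) (t : ℝ) : billiardFlow Q t z = z := by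
  have h' : ¬ Nonempty (FlightChain Q z) := fun hc => h (nonempty_chain_iff.1 hc)
  unfold billiardFlow
  rw [dif_neg h']

theorem flow_zero (z : Phase) : billiardFlow Q 0 z = z := by
  by_cases h : Good Q z
  · rw [flow_eq_at (chainOfGood h) 0, chain_at_zero]
  · exact flow_of_not_good h 0

theorem flow_eq_cflow (hz : Good Q z) {n : ℤ} {t : ℝ} (h1 : ctime Q n z ≤ t)
    (h2 : t < ctime Q (n + 1) z) : billiardFlow Q t z = cflow Q n t z := by
  have e1 : (chainOfGood hz).time n ≤ t := by rw [chain_canon_time]; exact h1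
  have e2 : t < (chainOfGood hz).time (n + 1) := by rw [chain_canon_time]; exact h2
  rw [flow_eq_at (chainOfGood hz), chain_at_eq (chainOfGood hz) e1 e2, chain_canon_point,
    chain_canon_time, chain_canon_dir]
  rfl

theorem ctime_strictMono (hz : Good Q z) : StrictMono (fun n : ℤ => ctime Q n z) := by
  intro a b hab
  have h := (chainOfGood hz).increasing hab
  rwa [chain_canon_time, chain_canon_time] at h

theorem ctime_zero_neg (hz : Good Q z) : ctime Q 0 z < 0 := by
  have h := (chainOfGood hz).zero_before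
  rwa [chain_canon_time] at h

theorem exists_ctime_index (hz : Good Q z) (t : ℝ) :
    ∃ n : ℤ, ctime Q n z ≤ t ∧ t < ctime Q (n + 1) z := by
  obtain ⟨n, h1, h2⟩ := chain_exists_index (chainOfGood hz) t
  rw [chain_canon_time] at h1 h2
  exact ⟨n, h1, h2⟩

theorem ctime_succ (n : ℕ) (z : Phase) : ctime Q ((n : ℤ) + 1) z = ft Q (n + 1) z := by
  have h1 : (1 : ℤ) ≤ (n : ℤ) + 1 := by omega
  have h2 : ((n : ℤ) + 1).toNat = n + 1 := by omega
  unfold ctime
  rw [if_pos h1, h2]

theorem ctime_neg (n : ℕ) (z : Phase) : ctime Q (-(n : ℤ)) z = - ft Q (n + 1) (ng z) := by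
  have h1 : ¬ (1 : ℤ) ≤ -(n : ℤ) := by omega
  have h2 : (1 - -(n : ℤ)).toNat = n + 1 := by omega
  unfold ctime
  rw [if_neg h1, h2]

theorem cflow_nat (n : ℕ) (t : ℝ) (z : Phase) :
    cflow Q (n : ℤ) t z =
      ((fs Q n z).1 + (t - ft Q n z) • ((fs Q n z).2 : ℂ), (fs Q n z).2) := by
  have hd : cdir Q (n : ℤ) z = (fs Q n z).2 := by
    have h0 : (0 : ℤ) ≤ (n : ℤ) := by omega
    unfold cdir
    rw [if_pos h0, Int.toNat_natCast]
  cases n with
  | zero =>
    have hp : cpoint Q ((0 : ℕ) : ℤ) z = z.1 + exitT Q (ng z) • (-(z.2 : ℂ)) := by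
      have h1 : ¬ (1 : ℤ) ≤ ((0 : ℕ) : ℤ) := by omega
      have h2 : (1 - ((0 : ℕ) : ℤ)).toNat = 1 := by omega
      unfold cpoint
      rw [if_neg h1, h2]
      show (ng z).1 + exitT Q (ng z) • (((ng z).2 : Circle) : ℂ) = _
      simp [ng]
    have ht : ctime Q ((0 : ℕ) : ℤ) z = - exitT Q (ng z) := by
      have h := ctime_neg (Q := Q) 0 z
      simp only [Nat.cast_zero, neg_zero] at h
      simp only [Nat.cast_zero]
      rw [h]
      simp [ft, fs]
    unfold cflow
    rw [hd, hp, ht]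
    refine Prod.ext ?_ rfl
    show z.1 + exitT Q (ng z) • (-(z.2 : ℂ)) + (t - - exitT Q (ng z)) • (z.2 : ℂ) =
      z.1 + (t - 0) • (z.2 : ℂ)
    simp only [Complex.real_smul]
    push_cast
    ring
  | succ m =>
    have h1 : (1 : ℤ) ≤ ((m + 1 : ℕ) : ℤ) := by omega
    have hp : cpoint Q ((m + 1 : ℕ) : ℤ) z = (fs Q (m + 1) z).1 := by
      unfold cpoint
      rw [if_pos h1, Int.toNat_natCast]
    have ht : ctime Q ((m + 1 : ℕ) : ℤ) z = ft Q (m + 1) z := by
      unfold ctime
      rw [if_pos h1, Int.toNat_natCast]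
    unfold cflow
    rw [hd, hp, ht]

theorem flow_eq_fwd (hz : Good Q z) {n : ℕ} {t : ℝ} (h1 : ft Q n z ≤ t) (h2 : t < ft Q (n + 1) z) :
    billiardFlow Q t z =
      ((fs Q n z).1 + (t - ft Q n z) • ((fs Q n z).2 : ℂ), (fs Q n z).2) := by
  have e1 : ctime Q (n : ℤ) z ≤ t := by
    cases n with
    | zero =>
      have h0 : (0 : ℝ) ≤ t := h1
      have h3 := ctime_zero_neg hz
      simp only [Nat.cast_zero]
      linarith
    | succ m =>
      have h3 := ctime_succ (Q := Q) m z
      push_cast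
      rw [h3]
      exact h1
  have e2 : t < ctime Q ((n : ℤ) + 1) z := by
    rw [ctime_succ]
    exact h2
  rw [flow_eq_cflow hz e1 e2, cflow_nat]

theorem exists_ft_index (hz : Good Q z) {t : ℝ} (ht : 0 ≤ t) :
    ∃ n : ℕ, ft Q n z ≤ t ∧ t < ft Q (n + 1) z := by
  obtain ⟨n, h1, h2⟩ := exists_ctime_index hz t
  have hn : 0 ≤ n := by
    by_contra hlt
    have h3 : n + 1 ≤ 0 := by omega
    have h4 := (ctime_strictMono hz).monotone h3
    have h5 := ctime_zero_neg hz
    have h4' : ctime Q (n + 1) z ≤ ctime Q 0 z := h4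
    linarith
  obtain ⟨m, rfl⟩ := Int.eq_ofNat_of_zero_le hn
  refine ⟨m, ?_, ?_⟩
  · cases m with
    | zero => exact ht
    | succ k =>
      have h3 := ctime_succ (Q := Q) k z
      push_cast at h1
      rw [h3] at h1
      exact h1
  · rw [ctime_succ] at h2
    exact h2

end Claimed.Agent.R081
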