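/-
Row 81, file MeasC: measurability of the one-step objects.  `Phase = ℂ × Circle` carries the product of the Borel sigma-algebras
(`circleBorelSpace` of Def_0145), `Fin 3` the discrete one.
* the coercion `Circle → ℂ` is continuous (`Circle.continuous_coe` / `continuous_subtype_val`), hence measurable;
  `continuous_bc`, `continuous_lc`, `continuous_rdir` give the measurability of the building blocks.
* `hit` is a quotient of measurable functions (`Measurable.div`).
* {ExitsVia j} = {lc j < 0} ∩ ⋂ k, {k ≠ j → lc k < 0 → hit j < hit k}: `MeasurableSet.iInter`, `measurableSet_lt`, complements,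
  unions (or `measurability`/`MeasurableSet.imp`-style by rewriting `p → q` as `¬ p ∨ q`; `MeasurableSet.const`).
* `exitC`: `Measurable.ite` twice with constants.
* `exitT s = hit (exitC s) s`, `step`: a function F (exitC s) s with each F j measurable is measurable: the preimage of a set is
  ⋃ j, {exitC = j} ∩ (F j) ⁻¹' _ ; this is `measurable_comp_fin` below.
-/
import Claimed.Agent.R081.ReflB

set_option autoImplicit false

namespace Claimed.Agent.R081

open Claims.C0145 Claims.C0145.TriangularBilliards
open MeasureTheory Set

variable (Q : Triangle)

theorem measurable_coe_circle : Measurable (fun v : Circle => (v : ℂ)) := by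
  have h : Continuous (fun v : Circle => (v : ℂ)) := continuous_subtype_val
  exact h.measurable

theorem measurable_comp_fin {α β : Type*} [MeasurableSpace α] [MeasurableSpace β] {e : α → Fin 3}
    (he : Measurable e) {F : Fin 3 → α → β} (hF : ∀ j, Measurable (F j)) :
    Measurable (fun a => F (e a) a) := by
  intro S hS
  have : (fun a => F (e a) a) ⁻¹' S = ⋃ j, (e ⁻¹' {j}) ∩ (F j ⁻¹' S) := by
    ext a
    simp only [mem_preimage, mem_iUnion, mem_inter_iff, mem_singleton_iff]
    constructor
    · intro h; exact ⟨e a, rfl, h⟩
    · rintro ⟨j, rfl, h⟩; exact h
  rw [this]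
  exact MeasurableSet.iUnion fun j => (he (measurableSet_singleton j)).inter (hF j hS)

theorem measurable_bc_fst (j : Fin 3) : Measurable (fun s : Phase => bc Q j s.1) :=
  (continuous_bc Q j).measurable.comp measurable_fst

theorem measurable_lc_snd (j : Fin 3) : Measurable (fun s : Phase => lc Q j (s.2 : ℂ)) :=
  (continuous_lc Q j).measurable.comp (measurable_coe_circle.comp measurable_snd)

theorem measurable_hit (j : Fin 3) : Measurable (hit Q j) := by
  unfold hit
  exact (measurable_bc_fst Q j).div (measurable_lc_snd Q j).neg

theorem measurableSet_exitsVia (j : Fin 3) : MeasurableSet {s : Phase | ExitsVia Q j s} := by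
  have : {s : Phase | ExitsVia Q j s} = {s : Phase | lc Q j (s.2 : ℂ) < 0} ∩
      ⋂ k : Fin 3, ({s : Phase | k ≠ j} ∩ {s : Phase | lc Q k (s.2 : ℂ) < 0})ᶜ ∪
        {s : Phase | hit Q j s < hit Q k s} := by
    ext s
    simp only [ExitsVia, mem_ofPred_eq, mem_inter_iff, mem_iInter, mem_union, mem_compl_iff, not_and]
    refine and_congr_right fun _ => forall_congr' fun k => ?_
    constructor
    · intro h
      by_cases h1 : k ≠ j
      · by_cases h2 : lc Q k (s.2 : ℂ) < 0
        · exact Or.inr (h h1 h2)
        · exact Or.inl fun _ => h2
      · exact Or.inl fun h' => absurd h' h1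
    · rintro (h | h) h1 h2
      · exact absurd h2 (h h1)
      · exact h
  rw [this]
  refine (measurableSet_lt (measurable_lc_snd Q j) measurable_const).inter
    (MeasurableSet.iInter fun k => ?_)
  exact (((MeasurableSet.const _).inter
    (measurableSet_lt (measurable_lc_snd Q k) measurable_const)).compl).union
    (measurableSet_lt (measurable_hit Q j) (measurable_hit Q k))

theorem measurableSet_reg : MeasurableSet {s : Phase | Reg Q s} := by
  have : {s : Phase | Reg Q s} = ⋃ j, {s : Phase | ExitsVia Q j s} := by
    ext s; simp [Reg]
  rw [this]
  exact MeasurableSet.iUnion fun j => measurableSet_exitsVia Q j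

theorem measurable_exitC : Measurable (exitC Q) := by
  unfold exitC
  exact Measurable.ite (measurableSet_exitsVia Q 0) measurable_const
    (Measurable.ite (measurableSet_exitsVia Q 1) measurable_const measurable_const)

theorem measurable_exitW : Measurable (exitW Q) := by
  unfold exitW
  exact (measurable_of_finite (fun j : Fin 3 => j + 1)).comp (measurable_exitC Q)

theorem measurable_exitT : Measurable (exitT Q) := by
  unfold exitT
  exact measurable_comp_fin (measurable_exitC Q) (measurable_hit Q)

theorem measurable_step : Measurable (step Q) := by
  unfold step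
  refine Measurable.prodMk ?_ ?_
  · exact measurable_fst.add ((measurable_exitT Q).smul (measurable_coe_circle.comp measurable_snd))
  · exact measurable_comp_fin (F := fun i (s : Phase) => rdir Q i s.2) (measurable_exitW Q)
      fun i => (continuous_rdir Q i).measurable.comp measurable_snd

theorem measurable_ng : Measurable ng := by
  unfold ng
  exact measurable_fst.prodMk (continuous_neg.measurable.comp measurable_snd)

theorem measurable_tr (t : ℝ) : Measurable (tr t) := by
  unfold tr
  exact (measurable_fst.add ((measurable_coe_circle.comp measurable_snd).const_smul t)).prodMk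
    measurable_snd

end Claimed.Agent.R081
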