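/-
Row 81, file MeasD: measurability of the iterated objects.
* `fs`, `ft`: induction on n (`measurable_step`, `measurable_exitT`, composition, sum).
* `fw n = exitW ∘ fs (n-1)`.
* {fword n = w}: induction on n, cases on w.  fword 0 z = []: the set is univ or empty.  fword (n+1) z = exitW (fs n z) :: fword n z:
  for w = [] empty; for w = i :: w' the set is {exitW (fs n z) = i} ∩ {fword n z = w'} (`List.cons.injEq`); singletons of `Fin 3`
  are measurable.
* {RegUpTo n}, {GoodF}: intersection of `Prod.fst ⁻¹' table` (`measurableSet_table`) with countable intersections of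
  (fs k) ⁻¹' {Reg}.   {Good} = {GoodF} ∩ ng ⁻¹' {GoodF}.
* `ctime`, `cpoint`, `cdir`, `cwall`: for a fixed n the `if` is decided: `unfold ctime; split_ifs`.  Negation on the circle is
  continuous (`continuous_neg`; or -v = (-1) * v).
* `cflow`: `Measurable.prodMk`, sums, `Measurable.smul`.
-/
import Claimed.Agent.R081.MeasC

set_option autoImplicit false

namespace Claimed.Agent.R081

open Claims.C0145 Claims.C0145.TriangularBilliards
open MeasureTheory Set

variable (Q : Triangle)

theorem measurable_fs (n : ℕ) : Measurable (fs Q n) := by
  induction n with
  | zero => exact measurable_id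
  | succ n ih => exact (measurable_step Q).comp ih

theorem measurable_ft (n : ℕ) : Measurable (ft Q n) := by
  induction n with
  | zero => exact measurable_const
  | succ n ih => exact ih.add ((measurable_exitT Q).comp (measurable_fs Q n))

theorem measurable_fw (n : ℕ) : Measurable (fw Q n) :=
  (measurable_exitW Q).comp (measurable_fs Q (n - 1))

theorem measurableSet_fword (n : ℕ) (w : List (Fin 3)) :
    MeasurableSet {z : Phase | fword Q n z = w} := by
  induction n generalizing w with
  | zero => exact MeasurableSet.const (([] : List (Fin 3)) = w)
  | succ n ih =>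
    cases w with
    | nil =>
      have : {z : Phase | fword Q (n + 1) z = []} = ∅ := by
        ext z
        simp [fword]
      rw [this]
      exact MeasurableSet.empty
    | cons i w' =>
      have : {z : Phase | fword Q (n + 1) z = i :: w'}
          = ((fun z => exitW Q (fs Q n z)) ⁻¹' {i}) ∩ {z : Phase | fword Q n z = w'} := by
        ext z
        simp [fword]
      rw [this]
      exact (((measurable_exitW Q).comp (measurable_fs Q n)) (measurableSet_singleton i)).inter
        (ih w')

theorem measurableSet_regUpTo (n : ℕ) : MeasurableSet {z : Phase | RegUpTo Q n z} := by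
  have : {z : Phase | RegUpTo Q n z}
      = (Prod.fst ⁻¹' Q.table) ∩ ⋂ k : ℕ, ⋂ _ : k < n, (fs Q k) ⁻¹' {s | Reg Q s} := by
    ext z
    simp [RegUpTo]
  rw [this]
  exact (measurable_fst (measurableSet_table Q)).inter
    (MeasurableSet.iInter fun k => MeasurableSet.iInter fun _ =>
      measurable_fs Q k (measurableSet_reg Q))

theorem measurableSet_goodF : MeasurableSet {z : Phase | GoodF Q z} := by
  have : {z : Phase | GoodF Q z}
      = (Prod.fst ⁻¹' Q.table) ∩ ⋂ k : ℕ, (fs Q k) ⁻¹' {s | Reg Q s} := by
    ext z
    simp [GoodF]
  rw [this]
  exact (measurable_fst (measurableSet_table Q)).inter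
    (MeasurableSet.iInter fun k => measurable_fs Q k (measurableSet_reg Q))

theorem measurableSet_good : MeasurableSet {z : Phase | Good Q z} :=
  (measurableSet_goodF Q).inter (measurable_ng (measurableSet_goodF Q))

theorem measurable_ctime (n : ℤ) : Measurable (ctime Q n) := by
  unfold ctime
  split_ifs
  · exact measurable_ft Q _
  · exact ((measurable_ft Q _).comp measurable_ng).neg

theorem measurable_cpoint (n : ℤ) : Measurable (cpoint Q n) := by
  unfold cpoint
  split_ifs
  · exact (measurable_fs Q _).fst
  · exact ((measurable_fs Q _).comp measurable_ng).fst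

theorem measurable_cdir (n : ℤ) : Measurable (cdir Q n) := by
  unfold cdir
  split_ifs
  · exact (measurable_fs Q _).snd
  · have hneg : Measurable (fun v : Circle => -v) := (continuous_neg : Continuous _).measurable
    exact hneg.comp ((measurable_fs Q _).comp measurable_ng).snd

theorem measurable_cflow (n : ℤ) (t : ℝ) : Measurable (cflow Q n t) := by
  unfold cflow
  refine Measurable.prodMk ?_ (measurable_cdir Q n)
  exact (measurable_cpoint Q n).add
    ((measurable_const.sub (measurable_ctime Q n)).smul
      (measurable_coe_circle.comp (measurable_cdir Q n)))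

end Claimed.Agent.R081
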