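/-
Row 81, file PW: an abstract lemma of measure theory (Mathlib only).
A measurable map f which, on countably many pairwise disjoint measurable pieces D i covering the finite-measure set S up to a
null set, coincides with invertible measure preserving maps g i of the ambient space, is injective on the union of the pieces
and maps the pieces into S, preserves the restriction of the measure to S.

Proof.  Let A be measurable.  f ⁻¹' A ∩ S is, up to a null set, the union of the D i ∩ (g i) ⁻¹' A, and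
D i ∩ (g i) ⁻¹' A = (g i) ⁻¹' ((k i) ⁻¹' (D i) ∩ A), so nu (D i ∩ (g i) ⁻¹' A) = nu ((k i) ⁻¹' (D i) ∩ A).
The sets E i = (k i) ⁻¹' (D i) = f '' (D i) are measurable, pairwise disjoint (injectivity) and contained in S.
Hence (map f (nu.restrict S)) A ≤ nu (A ∩ S).  Both measures have the same finite total mass nu S, so applying the
inequality to the complement of A gives equality.
-/
import Mathlib

set_option autoImplicit false

namespace Claimed.Agent.R081

open MeasureTheory Set
open scoped ENNReal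

theorem map_le_of_piecewise {α : Type*} [MeasurableSpace α] {ν : Measure α} {S : Set α}
    (hS : MeasurableSet S) {f : α → α} (hf : Measurable f)
    {ι : Type*} [Countable ι] (D : ι → Set α) (hD : ∀ i, MeasurableSet (D i))
    (hdisj : Pairwise (Function.onFun Disjoint D))
    (hcov : ν (S \ ⋃ i, D i) = 0)
    (g k : ι → α → α) (hg : ∀ i, MeasurePreserving (g i) ν ν) (hk : ∀ i, Measurable (k i))
    (hkg : ∀ i x, k i (g i x) = x) (hgk : ∀ i x, g i (k i x) = x)
    (hfg : ∀ i, ∀ x ∈ D i, f x = g i x)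
    (hinj : Set.InjOn f (⋃ i, D i)) (hfS : ∀ i, ∀ x ∈ D i, f x ∈ S)
    {A : Set α} (hA : MeasurableSet A) :
    ν (f ⁻¹' A ∩ S) ≤ ν (A ∩ S) := by
  -- the images of the pieces
  have hEmeas : ∀ i, MeasurableSet ((k i) ⁻¹' (D i) ∩ A) := fun i => ((hk i) (hD i)).inter hA
  have hfk : ∀ i y, k i y ∈ D i → f (k i y) = y := by
    intro i y hy
    rw [hfg i _ hy, hgk]
  have hEdisj : Pairwise (Function.onFun Disjoint fun i => (k i) ⁻¹' (D i) ∩ A) := by
    intro i j hij
    rw [Function.onFun, Set.disjoint_left]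
    rintro y ⟨hyi, -⟩ ⟨hyj, -⟩
    have h1 : k i y = k j y := by
      apply hinj (mem_iUnion.mpr ⟨i, hyi⟩) (mem_iUnion.mpr ⟨j, hyj⟩)
      rw [hfk i y hyi, hfk j y hyj]
    have h2 := Set.disjoint_left.mp (hdisj hij) hyi
    apply h2
    rw [h1]
    exact hyj
  have hEsub : (⋃ i, (k i) ⁻¹' (D i) ∩ A) ⊆ A ∩ S := by
    intro y hy
    obtain ⟨i, hyi, hyA⟩ := mem_iUnion.mp hy
    refine ⟨hyA, ?_⟩
    have := hfS i _ hyi
    rwa [hfk i y hyi] at this
  have hpiece : ∀ i, ν (D i ∩ (g i) ⁻¹' A) = ν ((k i) ⁻¹' (D i) ∩ A) := by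
    intro i
    rw [← (hg i).measure_preimage (hEmeas i).nullMeasurableSet]
    congr 1
    ext x
    simp only [mem_inter_iff, mem_preimage, hkg]
  have hsub : f ⁻¹' A ∩ S ⊆ (S \ ⋃ i, D i) ∪ ⋃ i, (D i ∩ (g i) ⁻¹' A) := by
    rintro x ⟨hxA, hxS⟩
    by_cases hx : x ∈ ⋃ i, D i
    · right
      obtain ⟨i, hi⟩ := mem_iUnion.mp hx
      refine mem_iUnion.mpr ⟨i, hi, ?_⟩
      show g i x ∈ A
      rw [← hfg i x hi]
      exact hxA
    · left
      exact ⟨hxS, hx⟩
  calc ν (f ⁻¹' A ∩ S) ≤ ν ((S \ ⋃ i, D i) ∪ ⋃ i, (D i ∩ (g i) ⁻¹' A)) := measure_mono hsub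
    _ ≤ ν (S \ ⋃ i, D i) + ν (⋃ i, (D i ∩ (g i) ⁻¹' A)) := measure_union_le _ _
    _ ≤ 0 + ∑' i, ν (D i ∩ (g i) ⁻¹' A) := by
        rw [hcov]
        exact add_le_add le_rfl (measure_iUnion_le _)
    _ = ∑' i, ν ((k i) ⁻¹' (D i) ∩ A) := by
        rw [zero_add]
        exact tsum_congr hpiece
    _ = ν (⋃ i, (k i) ⁻¹' (D i) ∩ A) := (measure_iUnion hEdisj hEmeas).symm
    _ ≤ ν (A ∩ S) := measure_mono hEsub

theorem map_restrict_eq_of_piecewise {α : Type*} [MeasurableSpace α] {ν : Measure α} {S : Set α}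
    (hS : MeasurableSet S) (hfin : ν S ≠ ∞) {f : α → α} (hf : Measurable f)
    {ι : Type*} [Countable ι] (D : ι → Set α) (hD : ∀ i, MeasurableSet (D i))
    (hdisj : Pairwise (Function.onFun Disjoint D))
    (hcov : ν (S \ ⋃ i, D i) = 0)
    (g k : ι → α → α) (hg : ∀ i, MeasurePreserving (g i) ν ν) (hk : ∀ i, Measurable (k i))
    (hkg : ∀ i x, k i (g i x) = x) (hgk : ∀ i x, g i (k i x) = x)
    (hfg : ∀ i, ∀ x ∈ D i, f x = g i x)
    (hinj : Set.InjOn f (⋃ i, D i)) (hfS : ∀ i, ∀ x ∈ D i, f x ∈ S) :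
    Measure.map f (ν.restrict S) = ν.restrict S := by
  have hfinS : IsFiniteMeasure (ν.restrict S) := ⟨by
    rw [Measure.restrict_apply_univ]; exact lt_top_iff_ne_top.mpr hfin⟩
  have hle : Measure.map f (ν.restrict S) ≤ ν.restrict S := by
    rw [Measure.le_iff]
    intro A hA
    rw [Measure.map_apply hf hA, Measure.restrict_apply (hf hA), Measure.restrict_apply hA]
    exact map_le_of_piecewise hS hf D hD hdisj hcov g k hg hk hkg hgk hfg hinj hfS hA
  refine Measure.eq_of_le_of_measure_univ_eq hle ?_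
  rw [Measure.map_apply hf MeasurableSet.univ, preimage_univ]

/-- a function which coincides with measurable functions on the pieces of a countable measurable cover is measurable -/
theorem measurable_of_countable_cover {α β : Type*} [MeasurableSpace α] [MeasurableSpace β]
    {ι : Type*} [Countable ι] (C : ι → Set α) (hC : ∀ i, MeasurableSet (C i)) (hcov : ∀ x, ∃ i, x ∈ C i)
    (g : ι → α → β) (hg : ∀ i, Measurable (g i)) {f : α → β} (hfg : ∀ i, ∀ x ∈ C i, f x = g i x) :
    Measurable f := by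
  intro t ht
  have h : f ⁻¹' t = ⋃ i, (C i ∩ (g i) ⁻¹' t) := by
    ext x
    simp only [mem_preimage, mem_iUnion, mem_inter_iff]
    constructor
    · intro hx
      obtain ⟨i, hi⟩ := hcov x
      exact ⟨i, hi, by rw [← hfg i x hi]; exact hx⟩
    · rintro ⟨i, hi, hx⟩
      rw [hfg i x hi]; exact hx
  rw [h]
  exact MeasurableSet.iUnion fun i => (hC i).inter (hg i ht)

end Claimed.Agent.R081
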