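/-
Row 81, file FlowMeas: the time-t map of the billiard flow is measurable.
`measurable_of_countable_cover` (file PW) with the index type `Option ℤ`:
  C none = {z | ¬ Good z},  g none = id  (`flow_of_not_good`);
  C (some n) = {z | Good z ∧ ctime n z ≤ t ∧ t < ctime (n+1) z},  g (some n) = cflow n t  (`flow_eq_cflow`).
Measurability of the pieces: `measurableSet_good`, `measurable_ctime`, `measurableSet_le`, `measurableSet_lt`.
Cover: `exists_ctime_index`.
-/
import Claimed.Agent.R081.FlowA
import Claimed.Agent.R081.MeasD
import Claimed.Agent.R081.PW

set_option autoImplicit false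

namespace Claimed.Agent.R081

open Claims.C0145 Claims.C0145.TriangularBilliards
open MeasureTheory Set

theorem measurable_flow (Q : Triangle) (t : ℝ) : Measurable (billiardFlow Q t) := by
  refine measurable_of_countable_cover (ι := Option ℤ)
    (fun o => match o with
      | none => {z : Phase | ¬ Good Q z}
      | some n => {z : Phase | Good Q z ∧ ctime Q n z ≤ t ∧ t < ctime Q (n + 1) z})
    ?_ ?_
    (fun o => match o with
      | none => id
      | some n => cflow Q n t)
    ?_ ?_
  · rintro (_ | n)
    · exact (measurableSet_good Q).compl
    · have h1 : MeasurableSet {z : Phase | ctime Q n z ≤ t} :=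
        measurableSet_le (measurable_ctime Q n) measurable_const
      have h2 : MeasurableSet {z : Phase | t < ctime Q (n + 1) z} :=
        measurableSet_lt measurable_const (measurable_ctime Q (n + 1))
      exact (measurableSet_good Q).inter (h1.inter h2)
  · intro z
    by_cases hz : Good Q z
    · obtain ⟨n, h1, h2⟩ := exists_ctime_index hz t
      exact ⟨some n, hz, h1, h2⟩
    · exact ⟨none, hz⟩
  · rintro (_ | n)
    · exact measurable_id
    · exact measurable_cflow Q n t
  · rintro (_ | n) z hz
    · exact flow_of_not_good hz t
    · exact flow_eq_cflow hz.1 hz.2.1 hz.2.2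

end Claimed.Agent.R081
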