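/-
Row 81, file Fold: unfolding.  After n regular collisions the billiard orbit is the image of the straight line orbit under the
composition `foldL (fword n z)` of the reflections in the walls met.
* `unfoldL_fst`: induction on w (`unfoldL (i :: w) z = unfoldL w (rph i z)`, `(rph i z).1 = rpt i z.1`).
* `fold_rel`: induction on n.  n = 0: both sides are (z.1 + s • z.2, z.2) (`ft 0 = 0`, `sub_zero`, `tr`).
  n + 1: write (y, v) = fs n z, tau = exitT (y, v), i = exitW (y, v); fs (n+1) z = (y + tau v, rdir i v), ft (n+1) z = ft n z + tau,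
  fword (n+1) z = i :: fword n z, foldL (i :: w) = rph i ∘ foldL w.  By the induction hypothesis (RegUpTo restricts to n)
  the right side is rph i (y + (s - ft n z) v, v) = (rpt i (y + (s - ft n z) v), rdir i v).  Now
  y + (s - ft n z) v = (y + tau v) + (s - ft n z - tau) v, `rpt_add_smul`, and rpt i (y + tau v) = y + tau v by
  `rpt_of_bc_eq_zero`, since y + tau v = (step (y,v)).1 lies on side i (`step_mem_side`, `adm_fs`, `mem_side_iff`).
  `coe_rdir` identifies the direction.
-/
import Claimed.Agent.R081.CanonA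

set_option autoImplicit false

namespace Claimed.Agent.R081

open Claims.C0145 Claims.C0145.TriangularBilliards
open MeasureTheory Set

variable {Q : Triangle}

/-- the action of `unfoldL` on points -/
noncomputable def unfoldP (Q : Triangle) : List (Fin 3) → ℂ → ℂ
  | [] => id
  | i :: w => unfoldP Q w ∘ rpt Q i

theorem unfoldL_fst (w : List (Fin 3)) (z : Phase) : (unfoldL Q w z).1 = unfoldP Q w z.1 := by
  induction w generalizing z with
  | nil => rfl
  | cons i w ih => exact ih (rph Q i z)

theorem RegUpTo.mono {n m : ℕ} {z : Phase} (h : RegUpTo Q n z) (hm : m ≤ n) : RegUpTo Q m z :=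
  ⟨h.1, fun k hk => h.2 k (lt_of_lt_of_le hk hm)⟩

theorem fold_rel {n : ℕ} {z : Phase} (h : RegUpTo Q n z) (s : ℝ) :
    ((fs Q n z).1 + (s - ft Q n z) • ((fs Q n z).2 : ℂ), (fs Q n z).2) =
      foldL Q (fword Q n z) (tr s z) := by
  induction n generalizing s with
  | zero =>
    show (z.1 + (s - 0) • (z.2 : ℂ), z.2) = (z.1 + s • (z.2 : ℂ), z.2)
    rw [sub_zero]
  | succ n ih =>
    have hn : RegUpTo Q n z := h.mono (Nat.le_succ n)
    have hreg : Reg Q (fs Q n z) := h.2 n (Nat.lt_succ_self n)
    have hside := step_mem_side (adm_fs hn) hreg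
    have hbc : bc Q (exitW Q (fs Q n z) + 2) (step Q (fs Q n z)).1 = 0 :=
      ((mem_side_iff Q _).1 hside).1
    have hfix := rpt_of_bc_eq_zero Q _ hbc
    show ((step Q (fs Q n z)).1 + (s - (ft Q n z + exitT Q (fs Q n z))) •
        ((step Q (fs Q n z)).2 : ℂ), (step Q (fs Q n z)).2) =
      rph Q (exitW Q (fs Q n z)) (foldL Q (fword Q n z) (tr s z))
    rw [← ih hn s]
    unfold rph
    refine Prod.ext ?_ rfl
    show (step Q (fs Q n z)).1 + (s - (ft Q n z + exitT Q (fs Q n z))) •
        ((rdir Q (exitW Q (fs Q n z)) (fs Q n z).2 : Circle) : ℂ) =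
      rpt Q (exitW Q (fs Q n z)) ((fs Q n z).1 + (s - ft Q n z) • ((fs Q n z).2 : ℂ))
    have hsplit : (fs Q n z).1 + (s - ft Q n z) • ((fs Q n z).2 : ℂ) =
        (step Q (fs Q n z)).1 + (s - (ft Q n z + exitT Q (fs Q n z))) • ((fs Q n z).2 : ℂ) := by
      show _ = ((fs Q n z).1 + exitT Q (fs Q n z) • ((fs Q n z).2 : ℂ)) + _
      rw [add_assoc, ← add_smul]
      congr 2
      ring
    rw [hsplit, rpt_add_smul, hfix, coe_rdir]

end Claimed.Agent.R081
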