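/-
Row 81, file MeasA: the angular measure on the circle.
`angularMeasure = map Circle.exp ((2 pi)^-1 • volume.restrict (Ico 0 (2 pi)))`.
* `Circle.exp` is continuous, hence measurable (the Borel structure on `Circle` is the instance of Def_0145).
* invariance under rotations: for a measurable A the set P = Circle.exp ⁻¹' A is 2 pi periodic, and
  volume (P ∩ Ico a (a + 2 pi)) does not depend on a (e.g. `isAddFundamentalDomain_Ioc`/`Ico` for zmultiples and
  `IsAddFundamentalDomain.measure_set_eq`, or split the interval by hand).  u = Circle.exp a (`Circle.exp` is onto: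
  `Circle.exp_arg`).
* invariance under inversion: theta -> -theta (`Measure.measurePreserving_neg`-type statement on the reals) + periodicity.
* no atoms: the preimage of a point in Ico 0 (2 pi) is a subsingleton (`Circle.injective_... ` / `Circle.exp_eq_exp`),
  or at least countable.
-/
import Claimed.Agent.R081.Defs

set_option autoImplicit false

namespace Claimed.Agent.R081

open Claims.C0145 Claims.C0145.TriangularBilliards
open MeasureTheory Set
open scoped ENNReal

theorem measurable_circle_exp : Measurable (Circle.exp : ℝ → Circle) :=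
  Circle.exp.continuous.measurable

theorem angular_apply {A : Set Circle} (hA : MeasurableSet A) :
    angularMeasure A =
      (ENNReal.ofReal (2 * Real.pi))⁻¹ * volume ((Circle.exp ⁻¹' A) ∩ Ico 0 (2 * Real.pi)) := by
  unfold angularMeasure
  rw [Measure.map_apply measurable_circle_exp hA, Measure.smul_apply,
    Measure.restrict_apply (measurable_circle_exp hA), smul_eq_mul]

theorem two_pi_pos' : (0 : ℝ) < 2 * Real.pi := by positivity

theorem angular_univ : angularMeasure univ = 1 := by
  rw [angular_apply MeasurableSet.univ, preimage_univ, univ_inter, Real.volume_Ico, sub_zero]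
  exact ENNReal.inv_mul_cancel (by simpa using two_pi_pos') ENNReal.ofReal_ne_top

instance angular_isProb : IsProbabilityMeasure angularMeasure := ⟨angular_univ⟩

theorem angular_singleton (v : Circle) : angularMeasure {v} = 0 := by
  rw [angular_apply (measurableSet_singleton v)]
  have hs : ((Circle.exp ⁻¹' {v}) ∩ Ico 0 (2 * Real.pi)).Subsingleton := by
    rintro a ⟨ha1, ha2⟩ b ⟨hb1, hb2⟩
    have h1 : Circle.exp a = Circle.exp b := by
      rw [mem_preimage, mem_singleton_iff] at ha1 hb1
      rw [ha1, hb1]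
    obtain ⟨m, hm⟩ := Circle.exp_eq_exp.1 h1
    have hpi := two_pi_pos'
    have hm0 : m = 0 := by
      by_contra hne
      rcases lt_or_gt_of_ne hne with h | h
      · have : (m : ℝ) ≤ -1 := by exact_mod_cast (by omega : m ≤ -1)
        nlinarith [ha2.1, ha2.2, hb2.1, hb2.2]
      · have : (1 : ℝ) ≤ m := by exact_mod_cast (by omega : 1 ≤ m)
        nlinarith [ha2.1, ha2.2, hb2.1, hb2.2]
    rw [hm, hm0]; simp
  rw [hs.measure_zero, mul_zero]

/-- periodicity: the mass of a 2 pi periodic measurable set in a period interval does not depend on the interval -/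
theorem volume_periodic_Ico {P : Set ℝ} (hP : MeasurableSet P)
    (hper : ∀ x, x + 2 * Real.pi ∈ P ↔ x ∈ P) (a : ℝ) :
    volume (P ∩ Ico a (a + 2 * Real.pi)) = volume (P ∩ Ico 0 (2 * Real.pi)) := by
  have hT := two_pi_pos'
  have hnat : ∀ (n : ℕ) (x : ℝ), x + n * (2 * Real.pi) ∈ P ↔ x ∈ P := by
    intro n
    induction n with
    | zero => intro x; simp
    | succ n ih =>
      intro x
      have : x + ((n + 1 : ℕ) : ℝ) * (2 * Real.pi) = (x + n * (2 * Real.pi)) + 2 * Real.pi := by
        push_cast; ring
      rw [this, hper, ih]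
  have hint : ∀ (n : ℤ) (x : ℝ), x + n * (2 * Real.pi) ∈ P ↔ x ∈ P := by
    intro n x
    obtain ⟨k, rfl | rfl⟩ := n.eq_nat_or_neg
    · simpa using hnat k x
    · have := hnat k (x + ((-(k : ℤ) : ℤ) : ℝ) * (2 * Real.pi))
      rw [← this]
      have e : x + ((-(k : ℤ) : ℤ) : ℝ) * (2 * Real.pi) + k * (2 * Real.pi) = x := by
        push_cast; ring
      rw [e]
  have hinv : ∀ g : AddSubgroup.zmultiples (2 * Real.pi), (fun x : ℝ => g +ᵥ x) ⁻¹' P = P := by
    rintro ⟨g, hg⟩
    obtain ⟨n, rfl⟩ := AddSubgroup.mem_zmultiples_iff.1 hg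
    ext x
    have := hint n x
    simp only [mem_preimage]
    show n • (2 * Real.pi) + x ∈ P ↔ x ∈ P
    rw [← this, zsmul_eq_mul, add_comm]
  have h1 := (isAddFundamentalDomain_Ioc hT a (volume : Measure ℝ)).measure_set_eq
    (isAddFundamentalDomain_Ioc hT 0 (volume : Measure ℝ)) hP hinv
  rw [zero_add] at h1
  have e1 : volume (P ∩ Ico a (a + 2 * Real.pi)) = volume (P ∩ Ioc a (a + 2 * Real.pi)) :=
    measure_congr ((ae_eq_refl P).inter Ico_ae_eq_Ioc)
  have e2 : volume (P ∩ Ico 0 (2 * Real.pi)) = volume (P ∩ Ioc 0 (2 * Real.pi)) :=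
    measure_congr ((ae_eq_refl P).inter Ico_ae_eq_Ioc)
  rw [e1, e2, h1]

theorem exp_preimage_periodic (A : Set Circle) (x : ℝ) :
    x + 2 * Real.pi ∈ Circle.exp ⁻¹' A ↔ x ∈ Circle.exp ⁻¹' A := by
  simp only [mem_preimage]
  rw [Circle.exp_add, Circle.exp_two_pi, mul_one]

theorem mp_angular_mul (u : Circle) :
    MeasurePreserving (fun v : Circle => u * v) angularMeasure angularMeasure := by
  have hm : Measurable (fun v : Circle => u * v) := (continuous_const.mul continuous_id).measurable
  refine ⟨hm, ?_⟩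
  ext A hA
  rw [Measure.map_apply hm hA, angular_apply (hm hA), angular_apply hA]
  congr 1
  set a := Complex.arg (u : ℂ) with ha
  have hu : Circle.exp a = u := Circle.exp_arg u
  set P := Circle.exp ⁻¹' A with hP
  have hPm : MeasurableSet P := measurable_circle_exp hA
  have e1 : (Circle.exp ⁻¹' ((fun v : Circle => u * v) ⁻¹' A)) ∩ Ico 0 (2 * Real.pi) =
      (fun x : ℝ => x + a) ⁻¹' (P ∩ Ico a (a + 2 * Real.pi)) := by
    ext x
    simp only [mem_inter_iff, mem_preimage, mem_Ico, hP]
    rw [Circle.exp_add, hu, mul_comm]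
    constructor
    · rintro ⟨h1, h2, h3⟩; exact ⟨h1, by linarith, by linarith⟩
    · rintro ⟨h1, h2, h3⟩; exact ⟨h1, by linarith, by linarith⟩
  rw [e1, measure_preimage_add_right]
  exact volume_periodic_Ico hPm (exp_preimage_periodic A) a

theorem mp_angular_inv :
    MeasurePreserving (fun v : Circle => v⁻¹) angularMeasure angularMeasure := by
  have hm : Measurable (fun v : Circle => v⁻¹) := continuous_inv.measurable
  refine ⟨hm, ?_⟩
  ext A hA
  rw [Measure.map_apply hm hA, angular_apply (hm hA), angular_apply hA]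
  congr 1
  set P := Circle.exp ⁻¹' A with hP
  have hPm : MeasurableSet P := measurable_circle_exp hA
  have e1 : (Circle.exp ⁻¹' ((fun v : Circle => v⁻¹) ⁻¹' A)) ∩ Ico 0 (2 * Real.pi) =
      (fun x : ℝ => -x) ⁻¹' (P ∩ Ioc (-(2 * Real.pi)) 0) := by
    ext x
    simp only [mem_inter_iff, mem_preimage, mem_Ico, mem_Ioc, hP]
    rw [Circle.exp_neg]
    constructor
    · rintro ⟨h1, h2, h3⟩; exact ⟨h1, by linarith, by linarith⟩
    · rintro ⟨h1, h2, h3⟩; exact ⟨h1, by linarith, by linarith⟩
  have e2 : volume ((fun x : ℝ => -x) ⁻¹' (P ∩ Ioc (-(2 * Real.pi)) 0)) =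
      volume (P ∩ Ioc (-(2 * Real.pi)) 0) := by
    have := Measure.measure_preimage_neg (volume : Measure ℝ) (P ∩ Ioc (-(2 * Real.pi)) 0)
    exact this
  have e3 : volume (P ∩ Ioc (-(2 * Real.pi)) 0) = volume (P ∩ Ico (-(2 * Real.pi)) 0) :=
    measure_congr ((ae_eq_refl P).inter Ico_ae_eq_Ioc.symm)
  rw [e1, e2, e3]
  have := volume_periodic_Ico hPm (exp_preimage_periodic A) (-(2 * Real.pi))
  rwa [neg_add_cancel] at this

theorem mp_angular_neg :
    MeasurePreserving (fun v : Circle => -v) angularMeasure angularMeasure := by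
  have : (fun v : Circle => -v) = fun v : Circle => (-1 : Circle) * v := by
    funext v; rw [neg_one_mul]
  rw [this]
  exact mp_angular_mul (-1)

end Claimed.Agent.R081
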