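/-
Row 81, file MeasB: the phase measure as a normalised restriction of the ambient measure `amb = volume.prod angularMeasure`.
* the table is an open (`isOpen_table`), nonempty (the centroid has all `bc` = 1/3; or `mem_table_iff` +
  `AffineBasis`/`interior_convexHull_nonempty_iff_affineSpan_eq_top` with `span_top`) and bounded set
  (`(finite_range _).isBounded`, `isBounded_convexHull`, `interior_subset`), hence 0 < volume < top
  (`IsOpen.measure_pos`, `Bornology.IsBounded.measure_lt_top`).
* `phaseMeasure_eq`: `Measure.prod_smul_left`, `Measure.prod_restrict`, `Measure.restrict_univ`.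
* `phaseMeasure_null_of_amb`: `Measure.restrict_apply'` (the set N need not be measurable).
-/
import Claimed.Agent.R081.MeasA
import Claimed.Agent.R081.BaryB

set_option autoImplicit false

namespace Claimed.Agent.R081

open Claims.C0145 Claims.C0145.TriangularBilliards
open MeasureTheory Set
open scoped ENNReal

variable (Q : Triangle)

theorem measB_table_nonempty : Q.table.Nonempty := by
  show (interior (convexHull ℝ (range Q.vertex))).Nonempty
  rw [interior_convexHull_nonempty_iff_affineSpan_eq_top]
  exact span_top Q

theorem volume_table_pos : 0 < volume Q.table := by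
  exact (isOpen_table Q).measure_pos volume (measB_table_nonempty Q)

theorem volume_table_lt_top : volume Q.table < ∞ := by
  have hb : Bornology.IsBounded Q.table :=
    ((isBounded_convexHull).2 (finite_range Q.vertex).isBounded).subset interior_subset
  exact hb.measure_lt_top

/-- clause 1 -/
theorem phaseMeasure_univ : phaseMeasure Q univ = 1 := by
  unfold phaseMeasure
  rw [← univ_prod_univ, Measure.prod_prod, angular_univ, mul_one, Measure.smul_apply,
    Measure.restrict_apply MeasurableSet.univ, univ_inter, smul_eq_mul]
  exact ENNReal.inv_mul_cancel (volume_table_pos Q).ne' (volume_table_lt_top Q).ne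

theorem measurableSet_tableProd : MeasurableSet (Q.table ×ˢ (univ : Set Circle)) := by
  exact (measurableSet_table Q).prod MeasurableSet.univ

theorem phaseMeasure_eq :
    phaseMeasure Q = (volume Q.table)⁻¹ • amb.restrict (Q.table ×ˢ (univ : Set Circle)) := by
  unfold phaseMeasure amb
  rw [Measure.prod_smul_left, ← Measure.prod_restrict, Measure.restrict_univ]

theorem amb_tableProd_ne_top : amb (Q.table ×ˢ (univ : Set Circle)) ≠ ∞ := by
  unfold amb
  rw [Measure.prod_prod, angular_univ, mul_one]
  exact (volume_table_lt_top Q).ne

theorem phaseMeasure_null_of_amb {N : Set Phase}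
    (h : amb (N ∩ Q.table ×ˢ (univ : Set Circle)) = 0) : phaseMeasure Q N = 0 := by
  rw [phaseMeasure_eq, Measure.smul_apply, Measure.restrict_apply' (measurableSet_tableProd Q), h,
    smul_zero]

/-- a property which holds off an `amb`-null set for the points of the table holds almost everywhere for the phase measure -/
theorem ae_phaseMeasure_of_amb {p : Phase → Prop}
    (h : amb {z : Phase | z.1 ∈ Q.table ∧ ¬ p z} = 0) : ∀ᵐ z ∂phaseMeasure Q, p z := by
  rw [ae_iff]
  apply phaseMeasure_null_of_amb
  have e : {z : Phase | ¬ p z} ∩ Q.table ×ˢ (univ : Set Circle) =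
      {z : Phase | z.1 ∈ Q.table ∧ ¬ p z} := by
    ext z
    simp only [mem_inter_iff, mem_setOf_eq, mem_prod, mem_univ, and_true]
    exact and_comm
  rw [e]
  exact h

/-- a map preserving the restriction of `amb` to the table preserves the phase measure -/
theorem mp_phaseMeasure_of_map {f : Phase → Phase} (hf : Measurable f)
    (h : Measure.map f (amb.restrict (Q.table ×ˢ (univ : Set Circle))) =
      amb.restrict (Q.table ×ˢ (univ : Set Circle))) :
    MeasurePreserving f (phaseMeasure Q) (phaseMeasure Q) := by
  refine ⟨hf, ?_⟩
  rw [phaseMeasure_eq, Measure.map_smul, h]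

end Claimed.Agent.R081
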