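/-
Row 81, file NullA: two families of `amb`-null sets.
* `amb_line_null`: {bc j = 0} is a proper affine subspace of the plane (it misses vertex j), so it is Lebesgue null
  (`Measure.addHaar_affineSubspace`; e.g. the set is the carrier of `AffineSubspace.comap`/the fibre of the affine map
  `(basis Q).coord j`), then `Measure.prod_prod`.
* `amb_ray_null`: the set is contained in the closed (hence measurable) set M = {z | crs z.2 (c - z.1) = 0}
  (`crs_smul_right`, `crs_self`).  By `Measure.measure_prod_null` it suffices that for almost every x (all x ≠ c; points are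
  Lebesgue null) the section {v | crs v (c - x) = 0} is null for `angularMeasure`.  By `exists_smul_of_crs_eq_zero`
  a unit vector v in the section is a real multiple of e = c - x ≠ 0, so the section has at most two points
  (v = a e with |a| |e| = 1) and `angular_singleton` applies.
-/
import Claimed.Agent.R081.MeasA
import Claimed.Agent.R081.ReflB

set_option autoImplicit false

namespace Claimed.Agent.R081

open Claims.C0145 Claims.C0145.TriangularBilliards
open MeasureTheory Set
open scoped ENNReal

theorem volume_line_null (Q : Triangle) (j : Fin 3) : volume {x : ℂ | bc Q j x = 0} = 0 := by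
  set s : AffineSubspace ℝ ℂ :=
    (AffineSubspace.mk' (0 : ℝ) ⊥).comap ((basis Q).coord j) with hs
  have hset : {x : ℂ | bc Q j x = 0} = (s : Set ℂ) := by
    ext x
    simp [hs, bc, AffineSubspace.mem_mk']
  have hne : s ≠ ⊤ := by
    intro h
    have hm : Q.vertex j ∈ (s : Set ℂ) := by
      rw [h]; exact mem_univ _
    rw [← hset] at hm
    have h1 : bc Q j (Q.vertex j) = 1 := by
      have := (basis Q).coord_apply_eq j
      exact this
    rw [mem_ofPred_eq, h1] at hm
    exact one_ne_zero hm
  rw [hset]
  exact Measure.addHaar_affineSubspace volume s hne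

theorem amb_line_null (Q : Triangle) (j : Fin 3) :
    amb ({x : ℂ | bc Q j x = 0} ×ˢ (univ : Set Circle)) = 0 := by
  unfold amb
  rw [Measure.prod_prod, volume_line_null, zero_mul]

theorem angular_section_null {e : ℂ} (he : e ≠ 0) :
    angularMeasure {v : Circle | crs (v : ℂ) e = 0} = 0 := by
  have hn : ‖e‖ ≠ 0 := norm_ne_zero_iff.mpr he
  have hsub : ∀ w : ℂ, angularMeasure {v : Circle | (v : ℂ) = w} = 0 := by
    intro w
    have hss : ({v : Circle | (v : ℂ) = w}).Subsingleton := by
      intro a ha b hb
      apply Circle.ext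
      rw [mem_ofPred_eq] at ha hb
      rw [ha, hb]
    rcases hss.eq_empty_or_singleton with h | ⟨u, h⟩
    · rw [h, measure_empty]
    · rw [h, angular_singleton]
  have hincl : {v : Circle | crs (v : ℂ) e = 0} ⊆
      {v : Circle | (v : ℂ) = (‖e‖⁻¹ : ℝ) • e} ∪ {v : Circle | (v : ℂ) = (-‖e‖⁻¹ : ℝ) • e} := by
    intro v hv
    obtain ⟨a, ha⟩ := exists_smul_of_crs_eq_zero he hv
    have h1 : |a| * ‖e‖ = 1 := by
      have := congrArg norm ha
      rw [Circle.norm_coe, norm_smul, Real.norm_eq_abs] at this
      exact this.symm
    have h2 : |a| = ‖e‖⁻¹ := eq_inv_of_mul_eq_one_left h1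
    rcases abs_choice a with h | h
    · left
      rw [mem_ofPred_eq, ha, ← h2, h]
    · right
      rw [mem_ofPred_eq, ha, ← h2, h, neg_neg]
  refine measure_mono_null hincl (measure_union_null (hsub _) (hsub _))

theorem amb_ray_null (c : ℂ) : amb {z : Phase | ∃ t : ℝ, z.1 + t • (z.2 : ℂ) = c} = 0 := by
  set M : Set Phase := {z : Phase | crs (z.2 : ℂ) (c - z.1) = 0} with hM
  have hcont : Continuous fun z : Phase => crs (z.2 : ℂ) (c - z.1) := by
    unfold crs
    exact Complex.continuous_im.comp
      ((Complex.continuous_conj.comp (continuous_subtype_val.comp continuous_snd)).mul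
        (continuous_const.sub continuous_fst))
  have hMm : MeasurableSet M := (isClosed_eq hcont continuous_const).measurableSet
  have hincl : {z : Phase | ∃ t : ℝ, z.1 + t • (z.2 : ℂ) = c} ⊆ M := by
    rintro z ⟨t, ht⟩
    have : c - z.1 = t • (z.2 : ℂ) := by rw [← ht]; ring
    rw [hM, mem_ofPred_eq, this, crs_smul_right, crs_self, mul_zero]
  refine measure_mono_null hincl ?_
  unfold amb
  rw [Measure.measure_prod_null hMm]
  have hae : ∀ᵐ x : ℂ, x ≠ c := by
    have : ({c}ᶜ : Set ℂ) ∈ ae (volume : Measure ℂ) := compl_mem_ae_iff.2 (measure_singleton c)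
    exact this
  filter_upwards [hae] with x hx
  have : Prod.mk x ⁻¹' M = {v : Circle | crs (v : ℂ) (c - x) = 0} := rfl
  rw [this]
  exact angular_section_null (sub_ne_zero.2 (Ne.symm hx))

end Claimed.Agent.R081
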