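/-
Row 81, file NullB: almost every point of the phase space is `Good` (clause 2).
* `bad_subset`: let z.1 be in the table and ¬ GoodF z.  Let n be the least index with ¬ Reg (fs n z) (`Nat.find`), so RegUpTo n z.
  s = fs n z is admissible (`adm_fs`), so by `not_reg_hits_vertex` s.1 + tau • s.2 = vertex l.  `fold_rel` at time ft n z + tau:
  (vertex l, s.2) = foldL w (tr (ft n z + tau) z), w = fword n z.  Apply `unfoldL w` (`unfoldL_foldL`) and take first components
  (`unfoldL_fst`): z.1 + (ft n z + tau) • z.2 = unfoldP w (vertex l).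
* `amb_bad_null`: `measure_mono_null`, `measure_iUnion_null` (lists over `Fin 3` are countable), `amb_ray_null`.
* `amb_not_good_null`: {table ∧ ¬ Good} ⊆ B ∪ ng ⁻¹' B with B the bad set ((ng z).1 = z.1);
  ng ⁻¹' B is null by `mp_ng` (`MeasurePreserving.quasiMeasurePreserving`, `.preimage_null`).
* `ae_good`: `ae_phaseMeasure_of_amb`.   `clause2`: `nonempty_chain_iff`.
-/
import Claimed.Agent.R081.Fold
import Claimed.Agent.R081.NullA
import Claimed.Agent.R081.MeasB
import Claimed.Agent.R081.MeasMaps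
import Claimed.Agent.R081.CanonB

set_option autoImplicit false

namespace Claimed.Agent.R081

open Claims.C0145 Claims.C0145.TriangularBilliards
open MeasureTheory Set

variable (Q : Triangle)

theorem bad_subset :
    {z : Phase | z.1 ∈ Q.table ∧ ¬ GoodF Q z} ⊆
      ⋃ (w : List (Fin 3)) (l : Fin 3),
        {z : Phase | ∃ t : ℝ, z.1 + t • (z.2 : ℂ) = unfoldP Q w (Q.vertex l)} := by
  classical
  rintro z ⟨hz, hbad⟩
  have hex : ∃ n, ¬ Reg Q (fs Q n z) := by
    by_contra hcon
    exact hbad ⟨hz, fun n => by_contra fun hn => hcon ⟨n, hn⟩⟩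
  have hn : ¬ Reg Q (fs Q (Nat.find hex) z) := Nat.find_spec hex
  have hreg : RegUpTo Q (Nat.find hex) z :=
    ⟨hz, fun k hk => not_not.1 (Nat.find_min hex hk)⟩
  obtain ⟨n, hnd⟩ : ∃ n, n = Nat.find hex := ⟨_, rfl⟩
  rw [← hnd] at hn hreg
  obtain ⟨τ, -, l, hl⟩ := not_reg_hits_vertex (adm_fs hreg) hn
  have hf := fold_rel hreg (ft Q n z + τ)
  rw [add_sub_cancel_left, hl] at hf
  have h1 := congrArg (fun y => (unfoldL Q (fword Q n z) y).1) hf
  simp only [unfoldL_foldL, unfoldL_fst] at h1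
  simp only [mem_iUnion]
  exact ⟨fword Q n z, l, ft Q n z + τ, h1.symm⟩

theorem amb_bad_null : amb {z : Phase | z.1 ∈ Q.table ∧ ¬ GoodF Q z} = 0 := by
  exact measure_mono_null (bad_subset Q)
    (measure_iUnion_null fun w => measure_iUnion_null fun l => amb_ray_null _)

theorem amb_not_good_null : amb {z : Phase | z.1 ∈ Q.table ∧ ¬ Good Q z} = 0 := by
  have hsub : {z : Phase | z.1 ∈ Q.table ∧ ¬ Good Q z} ⊆
      {z : Phase | z.1 ∈ Q.table ∧ ¬ GoodF Q z} ∪ ng ⁻¹' {z : Phase | z.1 ∈ Q.table ∧ ¬ GoodF Q z} := by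
    rintro z ⟨hz, hbad⟩
    by_cases h1 : GoodF Q z
    · right
      exact ⟨hz, fun h2 => hbad ⟨h1, h2⟩⟩
    · left
      exact ⟨hz, h1⟩
  exact measure_mono_null hsub (measure_union_null (amb_bad_null Q)
    (mp_ng.quasiMeasurePreserving.preimage_null (amb_bad_null Q)))

theorem ae_good : ∀ᵐ z ∂phaseMeasure Q, Good Q z := by
  exact ae_phaseMeasure_of_amb Q (amb_not_good_null Q)

/-- clause 2 -/
theorem clause2 : ∀ᵐ z ∂phaseMeasure Q, Nonempty (FlightChain Q z) := by
  exact (ae_good Q).mono fun z hz => nonempty_chain_iff.2 hz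

end Claimed.Agent.R081
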