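/-
Row 81, file NullC: for a fixed time t, almost no orbit has a collision exactly at time t.
* `amb_coll_fwd_null`: the set is contained in ⋃ (n) (w) (j), (foldL w ∘ tr t) ⁻¹' ({bc j = 0} ×ˢ univ).  Indeed if GoodF z and
  ft (n+1) z = t, then `fold_rel` (for n + 1, at time s = t; `GoodF.regUpTo`) gives ((fs (n+1) z).1, _) = foldL w (tr t z) with
  w = fword (n+1) z, and (fs (n+1) z).1 = (step (fs n z)).1 lies on a side (`step_mem_side`, `adm_fs`), so one bc vanishes
  (`mem_side_iff`).  Each of these sets is null: `mp_foldL`, `mp_tr` (`MeasurePreserving.comp`, `.quasiMeasurePreserving`,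
  `.preimage_null`) and `amb_line_null`.
* `amb_coll_null`: if Good z and ctime n z = t: by `int_cases`, n = m + 1: ft (m+1) z = t (`ctime_succ`), z in the forward set for t;
  n = -m: ft (m+1) (ng z) = -t (`ctime_neg`), ng z in the forward set for -t; preimage under `ng` is null (`mp_ng`).
* `ae_noncoll`: `ae_phaseMeasure_of_amb`; the exceptional set is contained in {table ∧ ¬ Good} ∪ {Good ∧ collision at t}.
-/
import Claimed.Agent.R081.NullB
import Claimed.Agent.R081.FlowA

set_option autoImplicit false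

namespace Claimed.Agent.R081

open Claims.C0145 Claims.C0145.TriangularBilliards
open MeasureTheory Set

variable (Q : Triangle)

theorem amb_coll_fwd_null (t : ℝ) : amb {z : Phase | GoodF Q z ∧ ∃ n : ℕ, ft Q (n + 1) z = t} = 0 := by
  have hnull : ∀ (w : List (Fin 3)) (j : Fin 3),
      amb ((foldL Q w ∘ tr t) ⁻¹' ({x : ℂ | bc Q j x = 0} ×ˢ (univ : Set Circle))) = 0 := by
    intro w j
    exact ((mp_foldL Q w).comp (mp_tr t)).quasiMeasurePreserving.preimage_null (amb_line_null Q j)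
  have hU : amb (⋃ (w : List (Fin 3)), ⋃ (j : Fin 3),
      (foldL Q w ∘ tr t) ⁻¹' ({x : ℂ | bc Q j x = 0} ×ˢ (univ : Set Circle))) = 0 := by
    rw [measure_iUnion_null_iff]
    intro w
    rw [measure_iUnion_null_iff]
    intro j
    exact hnull w j
  refine measure_mono_null ?_ hU
  rintro z ⟨hg, n, hn⟩
  have hr := hg.regUpTo (n + 1)
  have hrel := fold_rel hr t
  have hside : (fs Q (n + 1) z).1 ∈ Q.side (exitW Q (fs Q n z)) :=
    step_mem_side (adm_fs (hg.regUpTo n)) (hg.2 n)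
  have hbc := ((mem_side_iff Q _).1 hside).1
  rw [hn, sub_self, zero_smul, add_zero] at hrel
  refine mem_iUnion.2 ⟨fword Q (n + 1) z, mem_iUnion.2 ⟨exitW Q (fs Q n z) + 2, ?_⟩⟩
  show (foldL Q (fword Q (n + 1) z) (tr t z)) ∈
    ({x : ℂ | bc Q (exitW Q (fs Q n z) + 2) x = 0} ×ˢ (univ : Set Circle))
  rw [← hrel]
  exact ⟨hbc, mem_univ _⟩

theorem amb_coll_null (t : ℝ) : amb {z : Phase | Good Q z ∧ ∃ n : ℤ, ctime Q n z = t} = 0 := by
  have h1 := amb_coll_fwd_null Q t
  have h2 : amb (ng ⁻¹' {z : Phase | GoodF Q z ∧ ∃ n : ℕ, ft Q (n + 1) z = -t}) = 0 :=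
    mp_ng.quasiMeasurePreserving.preimage_null (amb_coll_fwd_null Q (-t))
  refine measure_mono_null ?_ (measure_union_null h1 h2)
  rintro z ⟨hg, n, hn⟩
  revert hn
  refine int_cases (P := fun n => ctime Q n z = t → _) ?_ ?_ n
  · intro m hm
    rw [ctime_succ] at hm
    exact Or.inl ⟨hg.1, m, hm⟩
  · intro m hm
    rw [ctime_neg] at hm
    refine Or.inr ?_
    show GoodF Q (ng z) ∧ ∃ n : ℕ, ft Q (n + 1) (ng z) = -t
    exact ⟨hg.2, m, by linarith⟩

theorem ae_noncoll (t : ℝ) : ∀ᵐ z ∂phaseMeasure Q, Good Q z ∧ ∀ n : ℤ, ctime Q n z ≠ t := by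
  apply ae_phaseMeasure_of_amb
  refine measure_mono_null ?_ (measure_union_null (amb_not_good_null Q) (amb_coll_null Q t))
  rintro z ⟨hz, hn⟩
  by_cases hg : Good Q z
  · refine Or.inr ⟨hg, ?_⟩
    by_contra hc
    exact hn ⟨hg, fun n hne => hc ⟨n, hne⟩⟩
  · exact Or.inl ⟨hz, hg⟩

end Claimed.Agent.R081
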