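/-
Row 81, file Group: the group property (clause 5).
* `flow_flow`: c = `chainOfGood hz`.  By `chain_exists_index` there is n with c.time n ≤ t < c.time (n+1); c.time n ≠ t by ht and
  `chain_canon_time`, so c.time n < t.  d = `chainShift c n t _ _` is a flight chain of `c.at t = billiardFlow Q t z` (`flow_eq_at`;
  rewrite carefully: e.g. `have e : billiardFlow Q t z = c.at t := flow_eq_at c t; rw [e]`).  Then `flow_eq_at d s`,
  `chainShift_at`, `flow_eq_at c (s + t)`.
* `flow_good`: the same d and `nonempty_chain_iff`.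
* `clause5`: `ae_noncoll Q t`, `Filter.Eventually.mono`/`filter_upwards`, `flow_flow`.
-/
import Claimed.Agent.R081.NullC
import Claimed.Agent.R081.ChainShift

set_option autoImplicit false

namespace Claimed.Agent.R081

open Claims.C0145 Claims.C0145.TriangularBilliards
open MeasureTheory Set

variable {Q : Triangle} {z : Phase}

/-- a chain of `z` and an index with `t` strictly between two consecutive collisions. -/
theorem group_exists_index (hz : Good Q z) {t : ℝ} (ht : ∀ n : ℤ, ctime Q n z ≠ t) :
    ∃ (c : FlightChain Q z) (n : ℤ), c.time n < t ∧ t < c.time (n + 1) := by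
  obtain ⟨n, h1, h2⟩ := chain_exists_index (chainOfGood hz) t
  refine ⟨chainOfGood hz, n, lt_of_le_of_ne h1 ?_, h2⟩
  rw [chain_canon_time]
  exact ht n

theorem flow_flow (hz : Good Q z) {t : ℝ} (ht : ∀ n : ℤ, ctime Q n z ≠ t) (s : ℝ) :
    billiardFlow Q s (billiardFlow Q t z) = billiardFlow Q (s + t) z := by
  obtain ⟨c, n, h1, h2⟩ := group_exists_index hz ht
  have e : billiardFlow Q t z = c.at t := flow_eq_at c t
  rw [e, flow_eq_at (chainShift c n t h1 h2) s, chainShift_at, flow_eq_at c (s + t)]

theorem flow_good (hz : Good Q z) {t : ℝ} (ht : ∀ n : ℤ, ctime Q n z ≠ t) :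
    Good Q (billiardFlow Q t z) := by
  obtain ⟨c, n, h1, h2⟩ := group_exists_index hz ht
  have e : billiardFlow Q t z = c.at t := flow_eq_at c t
  rw [e]
  exact nonempty_chain_iff.1 ⟨chainShift c n t h1 h2⟩

/-- clause 5 -/
theorem clause5 (Q : Triangle) (s t : ℝ) :
    billiardFlow Q (s + t) =ᵐ[phaseMeasure Q] (billiardFlow Q s ∘ billiardFlow Q t) := by
  filter_upwards [ae_noncoll (Q := Q) t] with z hz
  exact (flow_flow hz.1 hz.2 s).symm

end Claimed.Agent.R081
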