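/-
Row 81, file PresA: the pieces on which the time-t map (t > 0) is an isometry of the unfolded phase space.
piece t (n, w) = {Good, ft n < t < ft (n+1), fword n = w}.
* `measurableSet_piece`: `measurableSet_good`, `measurable_ft`, `measurableSet_lt`, `measurableSet_fword`.
* `ft_strictMono`: `(halfOfGoodF hz).mono`.
* `piece_disjoint`: z in piece (n, w) and in piece (n', w').  If n < n' then ft (n+1) z ≤ ft n' z < t < ft (n+1) z; symmetric; so
  n = n' and w = fword n z = w'.  (`Set.disjoint_left`, `Prod.ext`.)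
* `piece_noncoll`: ctime is strictly increasing (`ctime_strictMono`).  ctime n z ≤ ft n z < t (equality for n ≥ 1 by `ctime_succ`, and
  ctime 0 z < 0 = ft 0 z) and t < ft (n+1) z = ctime (n+1) z.  If ctime m z = t then n < m < n + 1 (`StrictMono.lt_iff_lt`).
* `piece_cover`: the set is contained in {table ∧ ¬ Good} ∪ {GoodF ∧ ∃ n, ft (n+1) z = t}: for Good z take n from
  `exists_ft_index`; if ft n z < t then z is in piece (n, fword n z); otherwise ft n z = t > 0 so n = m + 1.
  `amb_not_good_null`, `amb_coll_fwd_null`, `measure_union_null`, `measure_mono_null`.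
* `flow_on_piece`: `flow_eq_fwd` and `fold_rel` (`GoodF.regUpTo`).
-/
import Claimed.Agent.R081.NullC
import Claimed.Agent.R081.MeasD

set_option autoImplicit false

namespace Claimed.Agent.R081

open Claims.C0145 Claims.C0145.TriangularBilliards
open MeasureTheory Set

variable (Q : Triangle)

def piece (t : ℝ) (p : ℕ × List (Fin 3)) : Set Phase :=
  {z | Good Q z ∧ ft Q p.1 z < t ∧ t < ft Q (p.1 + 1) z ∧ fword Q p.1 z = p.2}

theorem measurableSet_piece (t : ℝ) (p : ℕ × List (Fin 3)) : MeasurableSet (piece Q t p) := by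
  have h1 := measurableSet_good Q
  have h2 : MeasurableSet {z : Phase | ft Q p.1 z < t} :=
    measurableSet_lt (measurable_ft Q p.1) measurable_const
  have h3 : MeasurableSet {z : Phase | t < ft Q (p.1 + 1) z} :=
    measurableSet_lt measurable_const (measurable_ft Q (p.1 + 1))
  have h4 := measurableSet_fword Q p.1 p.2
  exact h1.inter (h2.inter (h3.inter h4))

theorem ft_strictMono {z : Phase} (hz : GoodF Q z) : StrictMono (fun n => ft Q n z) :=
  (halfOfGoodF hz).mono

theorem piece_disjoint (t : ℝ) : Pairwise (Function.onFun Disjoint (piece Q t)) := by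
  intro p p' hne
  refine Set.disjoint_left.2 fun z hz hz' => hne ?_
  obtain ⟨hg, a1, a2, a3⟩ := hz
  obtain ⟨-, b1, b2, b3⟩ := hz'
  have hm := (ft_strictMono Q hg.1).monotone
  have hn : p.1 = p'.1 := by
    rcases lt_trichotomy p.1 p'.1 with h | h | h
    · have : ft Q (p.1 + 1) z ≤ ft Q p'.1 z := hm (Nat.succ_le_of_lt h)
      linarith
    · exact h
    · have : ft Q (p'.1 + 1) z ≤ ft Q p.1 z := hm (Nat.succ_le_of_lt h)
      linarith
  refine Prod.ext hn ?_
  rw [← a3, ← b3, hn]

theorem piece_noncoll {t : ℝ} {p : ℕ × List (Fin 3)} {z : Phase} (hz : z ∈ piece Q t p) (m : ℤ) :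
    ctime Q m z ≠ t := by
  intro hm
  obtain ⟨hg, a1, a2, -⟩ := hz
  have hmono := ctime_strictMono hg
  have c1 : ctime Q (p.1 : ℤ) z < t := by
    rcases Nat.eq_zero_or_pos p.1 with h0 | h0
    · rw [h0] at a1 ⊢
      have h1 : ctime Q 0 z < 0 := ctime_zero_neg hg
      have h2 : ft Q 0 z = 0 := rfl
      rw [h2] at a1
      exact_mod_cast h1.trans a1
    · obtain ⟨k, hk⟩ := Nat.exists_eq_succ_of_ne_zero h0.ne'
      rw [hk] at a1 ⊢
      have := ctime_succ (Q := Q) k z
      push_cast
      rw [this]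
      exact a1
  have c2 : t < ctime Q ((p.1 : ℤ) + 1) z := by
    rw [ctime_succ]
    exact a2
  rw [← hm] at c1 c2
  have d1 : (p.1 : ℤ) < m := hmono.lt_iff_lt.1 c1
  have d2 : m < (p.1 : ℤ) + 1 := hmono.lt_iff_lt.1 c2
  omega

theorem piece_cover {t : ℝ} (ht : 0 < t) :
    amb ((Q.table ×ˢ (univ : Set Circle)) \ ⋃ p, piece Q t p) = 0 := by
  refine measure_mono_null ?_
    (measure_union_null (amb_not_good_null (Q := Q)) (amb_coll_fwd_null (Q := Q) t))
  rintro z ⟨hz1, hz2⟩
  by_cases hg : Good Q z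
  · right
    obtain ⟨n, h1, h2⟩ := exists_ft_index hg ht.le
    rcases lt_or_eq_of_le h1 with h | h
    · have hmem : z ∈ ⋃ p, piece Q t p :=
        Set.mem_iUnion.2 ⟨(n, fword Q n z), ⟨hg, h, h2, rfl⟩⟩
      exact absurd hmem hz2
    · rcases Nat.eq_zero_or_pos n with h0 | h0
      · rw [h0] at h
        have h3 : ft Q 0 z = 0 := rfl
        rw [h3] at h
        exact absurd h ht.ne
      · obtain ⟨k, hk⟩ := Nat.exists_eq_succ_of_ne_zero h0.ne'
        rw [hk] at h
        exact ⟨hg.1, k, h⟩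
  · left
    exact ⟨hz1.1, hg⟩

theorem flow_on_piece {t : ℝ} {p : ℕ × List (Fin 3)} {z : Phase} (hz : z ∈ piece Q t p) :
    billiardFlow Q t z = foldL Q p.2 (tr t z) := by
  obtain ⟨hg, a1, a2, a3⟩ := hz
  rw [flow_eq_fwd hg a1.le a2, fold_rel (hg.1.regUpTo p.1) t, a3]

end Claimed.Agent.R081
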