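/-
Row 81, file PresB: the billiard flow preserves the phase measure (clause 4).
* `flow_injOn_pieces`: for z in a piece, billiardFlow (-t) (billiardFlow t z) = billiardFlow (-t + t) z = z
  (`flow_flow`, `piece_noncoll`, `flow_zero`); so the map has a left inverse on the union (`Set.InjOn` by `congrArg`).
* `flow_piece_mem`: `flow_good` gives Good (billiardFlow t z), whose first component says that the point is in the table.
* `mp_flow_pos`: `mp_phaseMeasure_of_map` (`measurable_flow`) and `map_restrict_eq_of_piecewise` with S = table ×ˢ univ, nu = amb,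
  D = piece Q t, g p = foldL p.2 ∘ tr t (`mp_foldL`, `mp_tr`, `MeasurePreserving.comp`), k p = tr (-t) ∘ unfoldL p.2
  (`measurable_tr`, `measurable_unfoldL`); k (g x) = x and g (k x) = x by `unfoldL_foldL`, `foldL_unfoldL`, `tr_tr`, `tr_zero`.
* `clause4`: t > 0: `mp_flow_pos`.  t = 0: the map is the identity (`flow_zero`, `funext`), `MeasurePreserving.id`.
  t < 0: put f = billiardFlow t, g = billiardFlow (-t), mu the phase measure.  g preserves mu, and f ∘ g =ᵐ billiardFlow (t + -t) = id
  by `clause5`.  Hence map f mu = map f (map g mu) = map (f ∘ g) mu = map id mu = mu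
  (`Measure.map_map`, `Measure.map_congr`, `measurable_flow`).
-/
import Claimed.Agent.R081.PresA
import Claimed.Agent.R081.Group
import Claimed.Agent.R081.FlowMeas

set_option autoImplicit false

namespace Claimed.Agent.R081

open Claims.C0145 Claims.C0145.TriangularBilliards
open MeasureTheory Set

variable (Q : Triangle)

theorem flow_injOn_pieces (t : ℝ) : Set.InjOn (billiardFlow Q t) (⋃ p, piece Q t p) := by
  have hinv : ∀ z ∈ ⋃ p, piece Q t p, billiardFlow Q (-t) (billiardFlow Q t z) = z := by
    intro z hz
    obtain ⟨p, hp⟩ := mem_iUnion.1 hz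
    rw [flow_flow hp.1 (piece_noncoll Q hp) (-t), neg_add_cancel, flow_zero]
  intro z hz z' hz' h
  rw [← hinv z hz, ← hinv z' hz', h]

theorem flow_piece_mem {t : ℝ} (p : ℕ × List (Fin 3)) {z : Phase} (hz : z ∈ piece Q t p) :
    billiardFlow Q t z ∈ Q.table ×ˢ (univ : Set Circle) :=
  ⟨(flow_good hz.1 (piece_noncoll Q hz)).1.1, mem_univ _⟩

theorem mp_flow_pos {t : ℝ} (ht : 0 < t) :
    MeasurePreserving (billiardFlow Q t) (phaseMeasure Q) (phaseMeasure Q) := by
  refine mp_phaseMeasure_of_map Q (measurable_flow Q t) ?_
  refine map_restrict_eq_of_piecewise (measurableSet_tableProd Q) (amb_tableProd_ne_top Q)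
    (measurable_flow Q t) (piece Q t) (measurableSet_piece Q t) (piece_disjoint Q t)
    (piece_cover Q ht) (fun p => foldL Q p.2 ∘ tr t) (fun p => tr (-t) ∘ unfoldL Q p.2)
    (fun p => (mp_foldL Q p.2).comp (mp_tr t))
    (fun p => (measurable_tr (-t)).comp (measurable_unfoldL Q p.2))
    ?_ ?_ (fun p z hz => flow_on_piece Q hz) (flow_injOn_pieces Q t)
    (fun p z hz => flow_piece_mem Q p hz)
  · intro p x
    simp only [Function.comp]
    rw [unfoldL_foldL, tr_tr, neg_add_cancel, tr_zero]
  · intro p x
    simp only [Function.comp]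
    rw [tr_tr, add_neg_cancel, tr_zero, foldL_unfoldL]

/-- clause 4 -/
theorem clause4 (t : ℝ) :
    MeasurePreserving (billiardFlow Q t) (phaseMeasure Q) (phaseMeasure Q) := by
  rcases lt_trichotomy t 0 with ht | ht | ht
  · have hg := mp_flow_pos Q (t := -t) (by linarith)
    have hf := measurable_flow Q t
    refine ⟨hf, ?_⟩
    have h5 := clause5 Q t (-t)
    have hid : billiardFlow Q (t + -t) = id := by
      rw [add_neg_cancel]
      funext z
      exact flow_zero z
    calc Measure.map (billiardFlow Q t) (phaseMeasure Q)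
        = Measure.map (billiardFlow Q t)
            (Measure.map (billiardFlow Q (-t)) (phaseMeasure Q)) := by rw [hg.map_eq]
      _ = Measure.map (billiardFlow Q t ∘ billiardFlow Q (-t)) (phaseMeasure Q) :=
          Measure.map_map hf hg.measurable
      _ = Measure.map (billiardFlow Q (t + -t)) (phaseMeasure Q) := (Measure.map_congr h5).symm
      _ = phaseMeasure Q := by rw [hid, Measure.map_id]
  · subst ht
    have : billiardFlow Q 0 = id := funext fun z => flow_zero z
    rw [this]
    exact MeasurePreserving.id _
  · exact mp_flow_pos Q ht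

end Claimed.Agent.R081
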