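/-
Row 81, file Main: `MainConclusion Q` follows from its clause 6 (`Crux Q`, ergodicity).  No sorry in this file.
-/
import Claimed.Agent.R081.PresB

set_option autoImplicit false

namespace Claimed.Agent.R081

open Claims.C0145 Claims.C0145.TriangularBilliards
open MeasureTheory Set

theorem result_of_crux (Q : Triangle) (h : Crux Q) : MainConclusion Q :=
  ⟨phaseMeasure_univ Q, clause2 Q, fun _ c d => chain_unique c d, clause4 Q, clause5 Q, h⟩

end Claimed.Agent.R081
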