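/-
Row 81, file MeasMaps: the elementary maps of the phase space of the plane preserve `amb = volume.prod angularMeasure`.
* `mp_rpt`: x -> vertex + u * conj (x - vertex), |u| = 1, is a translation composed with a linear isometry composed with a
  translation.  The volume of the complex numbers is the one of the inner product space, so
  `LinearIsometryEquiv.measurePreserving` applies (linear isometry: `Complex.conjLIE` followed by `rotation (unitOf Q i)`;
  `coe_unitOf`); translations: `measurePreserving_add_left`, `measurePreserving_sub_right`.
* `mp_rdir`: `mp_angular_inv` then `mp_angular_mul`.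
* `mp_rph`, `mp_ng`: `MeasurePreserving.prod` (the function is `Prod.map _ _`).
* `mp_tr`: skew product over the SECOND coordinate: `MeasurePreserving.skew_product` for `angularMeasure.prod volume`
  conjugated by `Prod.swap` (`Measure.prod_swap`, `measurePreserving_swap`); the fibre maps are translations of the plane.
* `mp_foldL`, `measurable_unfoldL`: induction on the list.
-/
import Claimed.Agent.R081.MeasA
import Claimed.Agent.R081.ReflB

set_option autoImplicit false

namespace Claimed.Agent.R081

open Claims.C0145 Claims.C0145.TriangularBilliards
open MeasureTheory Set
open scoped ENNReal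

variable (Q : Triangle)

theorem mp_rpt (i : Fin 3) : MeasurePreserving (rpt Q i) volume volume := by
  have h1 : MeasurePreserving (fun x : ℂ => x - Q.vertex i) volume volume :=
    measurePreserving_sub_right volume (Q.vertex i)
  have h2 : MeasurePreserving (Complex.conjLIE.trans (rotation (unitOf Q i))) volume volume :=
    LinearIsometryEquiv.measurePreserving _
  have h3 : MeasurePreserving (fun x : ℂ => Q.vertex i + x) volume volume :=
    measurePreserving_add_left volume (Q.vertex i)
  have h := h3.comp (h2.comp h1)
  have e : rpt Q i = (fun x : ℂ => Q.vertex i + x) ∘
      ((Complex.conjLIE.trans (rotation (unitOf Q i))) ∘ (fun x : ℂ => x - Q.vertex i)) := by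
    funext x
    simp only [Function.comp_apply, LinearIsometryEquiv.trans_apply, rotation_apply, Complex.conjLIE_apply]
    unfold rpt reflect
    rw [coe_unitOf, Complex.star_def]
  rw [e]
  exact h

theorem mp_rdir (i : Fin 3) : MeasurePreserving (rdir Q i) angularMeasure angularMeasure := by
  exact (mp_angular_mul (unitOf Q i)).comp mp_angular_inv

theorem mp_rph (i : Fin 3) : MeasurePreserving (rph Q i) amb amb := by
  exact (mp_rpt Q i).prod (mp_rdir Q i)

theorem mp_ng : MeasurePreserving ng amb amb := by
  exact (MeasurePreserving.id volume).prod mp_angular_neg

theorem mp_tr (t : ℝ) : MeasurePreserving (tr t) amb amb := by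
  have hgm : Measurable (Function.uncurry fun (v : Circle) (x : ℂ) => x + t • (v : ℂ)) := by
    have hc : Continuous (Function.uncurry fun (v : Circle) (x : ℂ) => x + t • (v : ℂ)) := by
      unfold Function.uncurry
      exact continuous_snd.add ((continuous_subtype_val.comp continuous_fst).const_smul t)
    exact hc.measurable
  have hsk : MeasurePreserving (fun p : Circle × ℂ => (id p.1, p.2 + t • (p.1 : ℂ)))
      (angularMeasure.prod volume) (angularMeasure.prod volume) :=
    (MeasurePreserving.id angularMeasure).skew_product (g := fun (v : Circle) (x : ℂ) => x + t • (v : ℂ)) hgm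
      (Filter.Eventually.of_forall fun v => (measurePreserving_add_right volume (t • (v : ℂ))).map_eq)
  have hsw1 : MeasurePreserving (Prod.swap : ℂ × Circle → Circle × ℂ) amb (angularMeasure.prod volume) :=
    Measure.measurePreserving_swap
  have hsw2 : MeasurePreserving (Prod.swap : Circle × ℂ → ℂ × Circle) (angularMeasure.prod volume) amb :=
    Measure.measurePreserving_swap
  exact hsw2.comp (hsk.comp hsw1)

theorem mp_foldL (w : List (Fin 3)) : MeasurePreserving (foldL Q w) amb amb := by
  induction w with
  | nil => exact MeasurePreserving.id amb
  | cons i w ih => exact (mp_rph Q i).comp ih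

theorem measurable_unfoldL (w : List (Fin 3)) : Measurable (unfoldL Q w) := by
  induction w with
  | nil => exact measurable_id
  | cons i w ih => exact ih.comp (mp_rph Q i).measurable

end Claimed.Agent.R081
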